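import Vale.Agent.P134B.Defs

/-!
# P134T: calculus for the gradient and the Laplacian, the maximum principle, the radial barrier
-/

open MeasureTheory Metric Filter Topology Set
open scoped ContDiff RealInnerProductSpace
open Vale.Agent.P366.Stmt (E)
open Vale.Agent.P366W hiding Gr
open Vale.Agent.P134B

noncomputable section

namespace Vale.Agent.P134T

variable {n : ℕ} {f g : E n → ℝ} {x c e : E n} {φ φ₁ : ℝ → ℝ} {a d μ : ℝ}

/-- the derivative of `u` in the direction `e` -/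
def du (u : E n → ℝ) (e x : E n) : ℝ := ⟪gradient u x, e⟫

/-- the radial barrier with the centre `c` -/
def hb (μ : ℝ) (c x : E n) : ℝ := Real.cosh (μ * √(1 + ‖x - c‖ ^ 2))

theorem grad_ext {v : E n} (h : ∀ w, fderiv ℝ f x w = ⟪v, w⟫) : gradient f x = v :=
  ext_inner_right ℝ fun w => by rw [inner_grad, h]

theorem grad_add (hf : DifferentiableAt ℝ f x) (hg : DifferentiableAt ℝ g x) :
    gradient (fun y => f y + g y) x = gradient f x + gradient g x :=
  grad_ext fun w => by rw [fderiv_fun_add hf hg, inner_add_left, inner_grad, inner_grad]; rfl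

theorem grad_sub (hf : DifferentiableAt ℝ f x) (hg : DifferentiableAt ℝ g x) :
    gradient (fun y => f y - g y) x = gradient f x - gradient g x :=
  grad_ext fun w => by rw [fderiv_fun_sub hf hg, inner_sub_left, inner_grad, inner_grad]; rfl

theorem grad_mul (hf : DifferentiableAt ℝ f x) (hg : DifferentiableAt ℝ g x) :
    gradient (fun y => f y * g y) x = f x • gradient g x + g x • gradient f x :=
  grad_ext fun w => by
    rw [fderiv_fun_mul hf hg, inner_add_left, inner_smul_left, inner_smul_left, inner_grad,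
      inner_grad]
    simp

theorem grad_const (a : ℝ) (x : E n) : gradient (fun _ : E n => a) x = 0 := by simp [gradient]

theorem grad_cmul (a : ℝ) (hf : DifferentiableAt ℝ f x) :
    gradient (fun y => a * f y) x = a • gradient f x := by
  rw [grad_mul (differentiableAt_const a) hf, grad_const]; simp

theorem grad_comp (h : HasDerivAt φ d (f x)) (hf : DifferentiableAt ℝ f x) :
    gradient (fun y => φ (f y)) x = d • gradient f x :=
  grad_ext fun w => by
    have := (h.comp_hasFDerivAt x hf.hasFDerivAt).fderiv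
    rw [show (fun y => φ (f y)) = φ ∘ f from rfl, this, inner_smul_left, inner_grad]
    simp

theorem cd_lin {k : WithTop ℕ∞} (c e : E n) : ContDiff ℝ k fun y : E n => ⟪y - c, e⟫ :=
  (contDiff_id.sub contDiff_const).inner ℝ contDiff_const

theorem cd_nsq {k : WithTop ℕ∞} (c : E n) : ContDiff ℝ k fun y : E n => ‖y - c‖ ^ 2 :=
  (contDiff_id.sub contDiff_const).norm_sq ℝ

theorem grad_lin (c e x : E n) : gradient (fun y : E n => ⟪y - c, e⟫) x = e :=
  grad_ext fun w => by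
    have h := ((hasFDerivAt_id x).sub_const c).inner ℝ (hasFDerivAt_const e x)
    rw [show (fun y : E n => ⟪y - c, e⟫) = fun y : E n => ⟪id y - c, e⟫ from rfl, h.fderiv]
    simp [real_inner_comm]

theorem grad_nsq (c x : E n) : gradient (fun y : E n => ‖y - c‖ ^ 2) x = (2 : ℝ) • (x - c) :=
  grad_ext fun w => by
    have h := ((hasFDerivAt_id x).sub_const c).norm_sq
    rw [show (fun y : E n => ‖y - c‖ ^ 2) = fun y : E n => ‖id y - c‖ ^ 2 from rfl, h.fderiv]
    simp [inner_smul_left, inner_sub_left]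

theorem d2 (hf : ContDiff ℝ 2 f) (x : E n) : DifferentiableAt ℝ f x :=
  hf.differentiable (by norm_num) x

theorem dg2 (hf : ContDiff ℝ 2 f) (x : E n) : DifferentiableAt ℝ (gradient f) x :=
  (contDiff_gradient (k := 1) hf).differentiable (by norm_num) x

theorem c2 (hf : ContDiff ℝ ∞ f) : ContDiff ℝ 2 f := hf.of_le (by norm_cast)

theorem lap_add (hf : ContDiff ℝ 2 f) (hg : ContDiff ℝ 2 g) (x : E n) :
    lap (fun y => f y + g y) x = lap f x + lap g x := by
  unfold lap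
  rw [show gradient (fun y => f y + g y) = fun y => gradient f y + gradient g y from
    funext fun y => grad_add (d2 hf y) (d2 hg y), dvg_add (dg2 hf x) (dg2 hg x)]

theorem lap_sub (hf : ContDiff ℝ 2 f) (hg : ContDiff ℝ 2 g) (x : E n) :
    lap (fun y => f y - g y) x = lap f x - lap g x := by
  unfold lap
  rw [show gradient (fun y => f y - g y) = fun y => gradient f y - gradient g y from
    funext fun y => grad_sub (d2 hf y) (d2 hg y), dvg_sub (dg2 hf x) (dg2 hg x)]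

theorem lap_mul (hf : ContDiff ℝ 2 f) (hg : ContDiff ℝ 2 g) (x : E n) :
    lap (fun y => f y * g y) x =
      f x * lap g x + g x * lap f x + 2 * ⟪gradient f x, gradient g x⟫ := by
  unfold lap
  rw [show gradient (fun y => f y * g y) = fun y => f y • gradient g y + g y • gradient f y from
    funext fun y => grad_mul (d2 hf y) (d2 hg y),
    dvg_add ((d2 hf x).fun_smul (dg2 hg x)) ((d2 hg x).fun_smul (dg2 hf x)),
    dvg_smul (d2 hf x) (dg2 hg x), dvg_smul (d2 hg x) (dg2 hf x), ← inner_grad, ← inner_grad,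
    real_inner_comm (gradient f x)]
  ring

theorem dvg_const (v x : E n) : dvg (fun _ : E n => v) x = 0 := by simp [dvg]

theorem lap_const (a : ℝ) (x : E n) : lap (fun _ : E n => a) x = 0 := by
  unfold lap
  rw [show gradient (fun _ : E n => a) = fun _ => 0 from funext (grad_const a), dvg_const]

theorem lap_cmul (a : ℝ) (hf : ContDiff ℝ 2 f) (x : E n) :
    lap (fun y => a * f y) x = a * lap f x := by
  rw [lap_mul contDiff_const hf, lap_const, grad_const]; simp

theorem lap_comp (hf : ContDiff ℝ 2 f) (h1 : ∀ y, HasDerivAt φ (φ₁ (f y)) (f y))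
    (h2 : HasDerivAt φ₁ d (f x)) :
    lap (fun y => φ (f y)) x = d * ‖gradient f x‖ ^ 2 + φ₁ (f x) * lap f x := by
  unfold lap
  have h3 : DifferentiableAt ℝ (fun y => φ₁ (f y)) x :=
    h2.differentiableAt.comp x (d2 hf x)
  rw [show gradient (fun y => φ (f y)) = fun y => φ₁ (f y) • gradient f y from
    funext fun y => grad_comp (h1 y) (d2 hf y), dvg_smul h3 (dg2 hf x), ← inner_grad,
    grad_comp h2 (d2 hf x), inner_smul_left, real_inner_self_eq_norm_sq]
  simp [add_comm]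

theorem lap_lin (c e x : E n) : lap (fun y : E n => ⟪y - c, e⟫) x = 0 := by
  unfold lap
  rw [show gradient (fun y : E n => ⟪y - c, e⟫) = fun _ => e from funext (grad_lin c e), dvg_const]

theorem lap_nsq (c x : E n) : lap (fun y : E n => ‖y - c‖ ^ 2) x = 2 * n := by
  unfold lap
  rw [show gradient (fun y : E n => ‖y - c‖ ^ 2) = fun y => (2 : ℝ) • (y - c) from
    funext (grad_nsq c), dvg_eq]
  have h := ((hasFDerivAt_id (𝕜 := ℝ) x).sub_const c).const_smul (2 : ℝ)
  rw [show (fun y : E n => (2 : ℝ) • (y - c)) = (2 : ℝ) • fun y : E n => id y - c from rfl,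
    h.fderiv, trc_smul, trc_id]

/-- exponentials of linear functions -/
theorem lap_exp_lin (a b : ℝ) (c e x : E n) :
    lap (fun y : E n => Real.exp (a * ⟪y - c, e⟫ + b)) x =
      a ^ 2 * ‖e‖ ^ 2 * Real.exp (a * ⟪x - c, e⟫ + b) := by
  have h : ∀ s, HasDerivAt (fun s => Real.exp (a * s + b)) (a * Real.exp (a * s + b)) s :=
    fun s => by simpa [mul_comm] using (((hasDerivAt_id s).const_mul a).add_const b).exp
  rw [lap_comp (φ := fun s => Real.exp (a * s + b)) (φ₁ := fun s => a * Real.exp (a * s + b))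
    (cd_lin c e) (fun y => h _) ((h _).const_mul a), lap_lin, grad_lin]
  ring

theorem grad_max (h : IsLocalMax f x) : gradient f x = 0 :=
  grad_ext fun w => by rw [h.fderiv_eq_zero]; simp

theorem hess_max (hf : ContDiff ℝ 2 f) (h : IsLocalMax f x) (v : E n) :
    ⟪fderiv ℝ (gradient f) x v, v⟫ ≤ 0 := by
  have hl : ∀ t : ℝ, HasDerivAt (fun t : ℝ => x + t • v) v t := fun t => by
    simpa using ((hasDerivAt_id t).smul_const v).const_add x
  have h1 : ∀ t : ℝ, HasDerivAt (fun t : ℝ => f (x + t • v)) ⟪gradient f (x + t • v), v⟫ t :=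
    fun t => by
      rw [inner_grad]; exact (d2 hf _).hasFDerivAt.comp_hasDerivAt t (hl t)
  have h2 : HasDerivAt (fun t : ℝ => ⟪gradient f (x + t • v), v⟫)
      ⟪fderiv ℝ (gradient f) x v, v⟫ 0 := by
    have k : HasDerivAt (fun t : ℝ => gradient f (x + t • v)) (fderiv ℝ (gradient f) x v) 0 :=
      HasFDerivAt.comp_hasDerivAt_of_eq (0 : ℝ) (dg2 hf x).hasFDerivAt (hl 0) (by simp)
    simpa using k.inner ℝ (hasDerivAt_const (0 : ℝ) v)
  have h3 : IsLocalMax (fun t : ℝ => f (x + t • v)) 0 := by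
    have k : Tendsto (fun t : ℝ => x + t • v) (𝓝 0) (𝓝 x) :=
      (show Continuous fun t : ℝ => x + t • v by fun_prop).tendsto' 0 x (by simp)
    filter_upwards [k.eventually h] with t ht
    simpa using ht
  by_contra hn
  have e1 : deriv (fun t : ℝ => f (x + t • v)) = fun t => ⟪gradient f (x + t • v), v⟫ :=
    funext fun t => (h1 t).deriv
  have h4 := isLocalMin_of_deriv_deriv_pos (f := fun t : ℝ => f (x + t • v)) (x₀ := 0)
    (by rw [e1, h2.deriv]; exact not_le.1 hn) h3.deriv_eq_zero (h1 0).continuousAt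
  have h5 : (fun t : ℝ => f (x + t • v)) =ᶠ[𝓝 0] fun _ => f (x + (0 : ℝ) • v) := by
    filter_upwards [h3, h4] with t a b using le_antisymm a b
  have h6 := h5.deriv.deriv_eq
  rw [e1, h2.deriv] at h6
  simp [h6] at hn

theorem lap_max (hf : ContDiff ℝ 2 f) (h : IsLocalMax f x) : lap f x ≤ 0 := by
  unfold lap dvg
  refine Finset.sum_nonpos fun i _ => ?_
  simpa [EuclideanSpace.inner_single_right] using hess_max hf h (EuclideanSpace.single i 1)

/-- the maximum principle on a compact set -/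
theorem mp {K : Set (E n)} (hK : IsCompact K) (hf : ContDiff ℝ 2 f)
    (h : ∀ y ∈ K, 0 < f y → K ∈ 𝓝 y ∧ (gradient f y = 0 → 0 < lap f y)) : ∀ y ∈ K, f y ≤ 0 := by
  intro y hy
  obtain ⟨z, hz, hm⟩ := hK.exists_isMaxOn ⟨y, hy⟩ hf.continuous.continuousOn
  by_contra hn
  obtain ⟨h1, h2⟩ := h z hz ((not_le.1 hn).trans_le (hm hy))
  exact (h2 (grad_max (hm.isLocalMax h1))).not_ge (lap_max hf (hm.isLocalMax h1))

/-- a ball cut by a slab -/
def Sl (x : E n) (ρ : ℝ) (y c : E n) (a : ℝ) : Set (E n) := {w | ‖w - x‖ ≤ ρ ∧ |⟪w - y, c⟫| ≤ a}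

theorem sl_compact (x : E n) (ρ : ℝ) (y c : E n) (a : ℝ) : IsCompact (Sl x ρ y c a) :=
  (isCompact_closedBall x ρ).of_isClosed_subset
    ((isClosed_le (f := fun w : E n => ‖w - x‖) (by fun_prop) continuous_const).inter
      (isClosed_le (f := fun w : E n => |⟪w - y, c⟫|) (by fun_prop) continuous_const))
    fun _ h => mem_closedBall_iff_norm.2 h.1

theorem sl_nhds {ρ : ℝ} {y w : E n} (h1 : ‖w - x‖ < ρ) (h2 : |⟪w - y, c⟫| < a) :
    Sl x ρ y c a ∈ 𝓝 w := by
  have k1 : ∀ᶠ z in 𝓝 w, ‖z - x‖ < ρ :=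
    ContinuousAt.eventually_lt (by fun_prop) continuousAt_const h1
  have k2 : ∀ᶠ z in 𝓝 w, |⟪z - y, c⟫| < a :=
    ContinuousAt.eventually_lt (by fun_prop) continuousAt_const h2
  filter_upwards [k1, k2] with z a b using ⟨a.le, b.le⟩

/-! ### the radial barrier -/

theorem cd_hb {k : WithTop ℕ∞} (μ : ℝ) (c : E n) : ContDiff ℝ k (hb μ c) :=
  Real.contDiff_cosh.comp (contDiff_const.mul
    ((contDiff_const.add (cd_nsq c)).sqrt fun _ => by positivity))

theorem one_le_hb (μ : ℝ) (c x : E n) : 1 ≤ hb μ c x := Real.one_le_cosh _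

theorem hb_self (μ : ℝ) (c : E n) : hb μ c c = Real.cosh μ := by simp [hb]

theorem exp_le_hb (hμ : 0 ≤ μ) (c x : E n) : Real.exp (μ * ‖x - c‖) ≤ 2 * hb μ c x := by
  have h : ‖x - c‖ ≤ √(1 + ‖x - c‖ ^ 2) := Real.le_sqrt_of_sq_le (by linarith)
  have h2 := Real.exp_le_exp.2 (mul_le_mul_of_nonneg_left h hμ)
  rw [hb, Real.cosh_eq]
  linarith [Real.exp_pos (-(μ * √(1 + ‖x - c‖ ^ 2)))]

theorem norm_le_hb (hμ : 0 ≤ μ) (c x : E n) : μ * ‖x - c‖ ≤ 2 * hb μ c x := by
  linarith [exp_le_hb hμ c x, Real.add_one_le_exp (μ * ‖x - c‖)]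

theorem hb_sq (μ : ℝ) (c x : E n) : hb μ c x ^ 2 ≤ hb (2 * μ) c x := by
  rw [hb, hb, mul_assoc, Real.cosh_two_mul]
  nlinarith [sq_nonneg (Real.sinh (μ * √(1 + ‖x - c‖ ^ 2)))]

theorem hb_d1 (μ : ℝ) {s : ℝ} (hs : 0 ≤ s) : HasDerivAt (fun s => Real.cosh (μ * √(1 + s)))
    (μ * Real.sinh (μ * √(1 + s)) / (2 * √(1 + s))) s := by
  have h := ((((hasDerivAt_id s).const_add 1).sqrt (by positivity)).const_mul μ).cosh
  exact h.congr_deriv (by simp; ring)

theorem sinh_le_cosh' (t : ℝ) : Real.sinh t ≤ Real.cosh t := (Real.sinh_lt_cosh t).le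

theorem grad_hb (hμ : 0 ≤ μ) (c x : E n) : ‖gradient (hb μ c) x‖ ≤ μ * hb μ c x := by
  have h : ‖x - c‖ ≤ √(1 + ‖x - c‖ ^ 2) := Real.le_sqrt_of_sq_le (by linarith)
  have r0 : 0 < √(1 + ‖x - c‖ ^ 2) := by positivity
  have s0 : 0 ≤ Real.sinh (μ * √(1 + ‖x - c‖ ^ 2)) := Real.sinh_nonneg_iff.2 (by positivity)
  rw [show hb μ c = fun y => (fun s => Real.cosh (μ * √(1 + s))) (‖y - c‖ ^ 2) from rfl,
    grad_comp (f := fun y => ‖y - c‖ ^ 2) (hb_d1 μ (by positivity)) (d2 (cd_nsq c) x), grad_nsq,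
    norm_smul, norm_smul, Real.norm_of_nonneg (by positivity), Real.norm_two, div_mul_eq_mul_div,
    div_le_iff₀ (by positivity)]
  have := mul_le_mul (sinh_le_cosh' (μ * √(1 + ‖x - c‖ ^ 2))) h (norm_nonneg _)
    (Real.cosh_pos _).le
  nlinarith

theorem lap_hb (hμ : 0 ≤ μ) (c x : E n) : lap (hb μ c) x ≤ (μ ^ 2 + n * μ) * hb μ c x := by
  obtain ⟨r, hr⟩ : ∃ r, r = √(1 + ‖x - c‖ ^ 2) := ⟨_, rfl⟩
  have r1 : 1 ≤ r := hr ▸ Real.le_sqrt_of_sq_le (by nlinarith [sq_nonneg ‖x - c‖])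
  have r2 : r ^ 2 = 1 + ‖x - c‖ ^ 2 := hr ▸ Real.sq_sqrt (by positivity)
  have s0 : 0 ≤ Real.sinh (μ * r) := Real.sinh_nonneg_iff.2 (by positivity)
  have q := ((hasDerivAt_id (‖x - c‖ ^ 2)).const_add 1).sqrt (by simp only [id]; positivity)
  have h2 : HasDerivAt (fun s => μ * Real.sinh (μ * √(1 + s)) / (2 * √(1 + s)))
      (μ ^ 2 * Real.cosh (μ * r) / (4 * r ^ 2) - μ * Real.sinh (μ * r) / (4 * r ^ 3))
      (‖x - c‖ ^ 2) := by
    refine ((((q.const_mul μ).sinh).const_mul μ).div (q.const_mul 2) (by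
      simp only [id]; positivity)).congr_deriv ?_
    simp only [id, ← hr]
    field_simp
    ring
  rw [show hb μ c = fun y => (fun s => Real.cosh (μ * √(1 + s))) (‖y - c‖ ^ 2) from rfl,
    lap_comp (f := fun y => ‖y - c‖ ^ 2)
      (φ₁ := fun s => μ * Real.sinh (μ * √(1 + s)) / (2 * √(1 + s))) (cd_nsq c)
      (fun y => hb_d1 μ (by positivity)) h2, grad_nsq, lap_nsq, norm_smul, Real.norm_two]
  simp only [← hr]
  have c0 := Real.cosh_pos (μ * r)
  have e1 : (2 * ‖x - c‖) ^ 2 = 4 * (r ^ 2 - 1) := by rw [r2]; ring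
  have k1 : μ ^ 2 * Real.cosh (μ * r) / (4 * r ^ 2) * (4 * (r ^ 2 - 1)) ≤
      μ ^ 2 * Real.cosh (μ * r) := by
    rw [div_mul_eq_mul_div, div_le_iff₀ (by positivity)]
    nlinarith [mul_nonneg (sq_nonneg μ) c0.le]
  have k2 : 0 ≤ μ * Real.sinh (μ * r) / (4 * r ^ 3) * (4 * (r ^ 2 - 1)) :=
    mul_nonneg (by positivity) (by nlinarith)
  have k3 : μ * Real.sinh (μ * r) / (2 * r) * (2 * n) ≤ n * μ * Real.cosh (μ * r) := by
    rw [div_mul_eq_mul_div, div_le_iff₀ (by positivity)]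
    have := mul_le_mul (sinh_le_cosh' (μ * r)) r1 zero_le_one c0.le
    nlinarith [mul_le_mul_of_nonneg_left this (show 0 ≤ n * μ by positivity)]
  rw [e1, sub_mul]
  linarith

/-! ### elementary facts about solutions -/

variable {u : E n → ℝ} {C K ε : ℝ}

theorem _root_.Vale.Agent.P134B.Ok.tff_pos (h : Ok C u) (x : E n) : 0 < ff u x :=
  lt_of_lt_of_le (by positivity) (h.flo x)

theorem _root_.Vale.Agent.P134B.Ok.tpp_le (h : Ok C u) (x : E n) : ‖pp u x‖ ≤ 1 := by
  have := h.q0 x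
  unfold qq at this
  nlinarith [norm_nonneg (pp u x)]

theorem qq_le (u : E n → ℝ) (x : E n) : qq u x ≤ 1 := by
  unfold qq; nlinarith [norm_nonneg (pp u x)]

theorem _root_.Vale.Agent.P134B.Ok.tpp_ge (h : Ok C u) (x : E n) : 1 - qq u x ≤ ‖pp u x‖ := by
  unfold qq; nlinarith [norm_nonneg (pp u x), h.tpp_le x]

theorem ff_le (u : E n → ℝ) (x : E n) : ff u x ≤ 1 := by
  unfold ff
  rw [div_le_one (by positivity)]
  nlinarith [Real.one_lt_sqrt_two, sq_nonneg (u x)]

theorem _root_.Vale.Agent.P134B.Ok.tS_le (h : Ok C u) (x : E n) : ‖SS u x‖ ≤ C :=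
  (h.S0 x).trans (by
    have := Real.sqrt_le_one.2 (qq_le u x)
    nlinarith [h.C1])

theorem _root_.Vale.Agent.P134B.Ok.tEE_nn (h : Ok C u) (x : E n) : 0 ≤ EE u x := mul_nonneg (sq_nonneg _) (h.q0 x)

theorem _root_.Vale.Agent.P134B.Ok.tps_zero (h : Ok C u) : ps u x = 0 ↔ u x = 0 :=
  ⟨fun k => by rw [h.th, k]; simp, fun k => by simp [ps, k]⟩

theorem _root_.Vale.Agent.P134B.Ok.tcf (h : Ok C u) : ContDiff ℝ ∞ (ff u) :=
  (contDiff_const.sub (h.sm.pow 2)).div_const _

theorem _root_.Vale.Agent.P134B.Ok.tcp (h : Ok C u) : ContDiff ℝ ∞ (pp u) := smooth_gradient h.smp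

theorem _root_.Vale.Agent.P134B.Ok.tcpe (h : Ok C u) (e : E n) : ContDiff ℝ ∞ (pe u e) := h.tcp.inner ℝ contDiff_const

theorem _root_.Vale.Agent.P134B.Ok.tcdu (h : Ok C u) (e : E n) : ContDiff ℝ ∞ (du u e) :=
  (smooth_gradient h.sm).inner ℝ contDiff_const

theorem _root_.Vale.Agent.P134B.Ok.tcore_q (h : Ok C u) (hE : EE u x ≤ ε ^ 2) (hK : |ps u x| ≤ K) :
    qq u x ≤ (√2 * Real.exp (√2 * K) * ε) ^ 2 := by
  have h1 : Real.exp (-(√2 * K)) / √2 ≤ ff u x := le_trans (by gcongr) (h.flo x)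
  have h2 : 1 ≤ √2 * Real.exp (√2 * K) * ff u x := by
    rw [Real.exp_neg, div_le_iff₀ (by positivity), inv_le_iff_one_le_mul₀ (by positivity)] at h1
    linarith
  have h3 : 1 ≤ (√2 * Real.exp (√2 * K) * ff u x) ^ 2 := one_le_pow₀ h2
  calc qq u x ≤ (√2 * Real.exp (√2 * K) * ff u x) ^ 2 * qq u x :=
        le_mul_of_one_le_left (h.q0 x) h3
    _ = (√2 * Real.exp (√2 * K)) ^ 2 * EE u x := by unfold EE; ring
    _ ≤ (√2 * Real.exp (√2 * K)) ^ 2 * ε ^ 2 := by gcongr
    _ = _ := by ring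

theorem _root_.Vale.Agent.P134B.Ok.tcore_S (h : Ok C u) (hε : 0 ≤ ε) (hE : EE u x ≤ ε ^ 2) (hK : |ps u x| ≤ K) :
    ‖SS u x‖ ≤ C * (√2 * Real.exp (√2 * K) * ε) :=
  (h.S0 x).trans (mul_le_mul_of_nonneg_left
    (Real.sqrt_le_iff.2 ⟨by positivity, h.tcore_q hE hK⟩) (by linarith [h.C1]))

theorem _root_.Vale.Agent.P134B.Ok.tzero_q (h : Ok C u) (hE : EE u x ≤ ε ^ 2) (hx : u x = 0) : qq u x ≤ 2 * ε ^ 2 := by
  have := h.tcore_q (K := 0) hE (by rw [h.tps_zero.2 hx]; simp)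
  simpa [mul_pow] using this

/-- a zero near every point of a core -/
theorem _root_.Vale.Agent.P134B.Ok.tnear (h : Ok C u) {R : ℝ} (hR : 0 ≤ R) (hx : C * Real.exp (-R) < ff u x) :
    ∃ y, ‖y - x‖ < R ∧ u y = 0 := by
  by_contra hn
  push Not at hn
  exact hx.not_ge (h.dec x R hR fun y hy => hn y (mem_ball_iff_norm.1 hy))

theorem _root_.Vale.Agent.P134B.Ok.ted (h : Ok C u) (e : E n) : du u e = fun x => ff u x * pe u e x :=
  funext fun x => by rw [du, h.gu, inner_smul_left]; rfl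

theorem _root_.Vale.Agent.P134B.Ok.teE (h : Ok C u) (x : E n) : EE u x = ff u x ^ 2 - ‖gradient u x‖ ^ 2 := by
  rw [h.gu, norm_smul, mul_pow, Real.norm_eq_abs, sq_abs, EE, qq]; ring

theorem _root_.Vale.Agent.P134B.Ok.tlf (h : Ok C u) (x : E n) :
    lap (ff u) x = (3 * u x ^ 2 - 1) * ff u x + √2 * EE u x := by
  have s2 : √2 * √2 = 2 := Real.mul_self_sqrt (by norm_num)
  have e : ff u = fun y => (fun s : ℝ => (1 - s ^ 2) / √2) (u y) := rfl
  have k : ∀ s : ℝ, HasDerivAt (fun s : ℝ => (1 - s ^ 2) / √2) (-√2 * s) s := fun s =>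
    (((hasDerivAt_pow 2 s).const_sub 1).div_const √2).congr_deriv (by
      field_simp; simp)
  have k2 : u x ^ 3 - u x = -(√2 * u x * ff u x) := by unfold ff; field_simp; ring
  have k3 : √2 * ff u x = 1 - u x ^ 2 := by unfold ff; field_simp
  conv_lhs => rw [e]
  rw [lap_comp (φ₁ := fun s => -√2 * s) (c2 h.sm) (fun y => k _)
    ((hasDerivAt_id (u x)).const_mul (-√2)), h.eq, h.teE, k2]
  linear_combination (u x ^ 2 * ff u x) * s2 - ff u x * k3

theorem _root_.Vale.Agent.P134B.Ok.tld (h : Ok C u) (e x : E n) : lap (du u e) x = (3 * u x ^ 2 - 1) * du u e x := by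
  have j := h.jac e x
  rw [Lf, h.gp] at j
  rw [h.ted, lap_mul (c2 (h.tcf)) (c2 (h.tcpe e)), h.tlf, h.gf, h.gp, inner_smul_left]
  simp only [PP, EE, conj_trivial] at j ⊢
  linear_combination ff u x * j

theorem _root_.Vale.Agent.P134B.Ok.tlip (h : Ok C u) (x y : E n) : |ps u y - ps u x| ≤ ‖y - x‖ := by
  simpa using convex_univ.norm_image_sub_le_of_norm_fderiv_le (𝕜 := ℝ) (C := 1)
    (fun z _ => d2 (c2 h.smp) z) (fun z _ => by rw [← norm_gradient]; exact h.tpp_le z)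
    (mem_univ x) (mem_univ y)

end Vale.Agent.P134T
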