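import Vale.Agent.P134B.Spec
import Vale.Agent.P134T.Calc

/-!
# P134T: flat slabs, barriers, the base point

Every `def` in capitals is a row; other rows enter as hypotheses.
-/

open MeasureTheory Metric Filter Topology Set
open scoped ContDiff RealInnerProductSpace
open Vale.Agent.P366.Stmt (E)
open Vale.Agent.P134B

noncomputable section

namespace Vale.Agent.P134T

/-- flat slabs -/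
def SLAB (n : ℕ) : Prop := ∀ (C K a r : ℝ) (u : E n → ℝ) (x y : E n), Ok C u → 0 ≤ a →
  |ps u y| ≤ K → ‖x - y‖ ≤ r → |⟪x - y, pp u y⟫| ≤ K → a * r ^ 2 ≤ 1 →
  (∀ w ∈ closedBall y r, |ps u w| ≤ 2 * K + 2 → ‖SS u w‖ ≤ a) →
  ‖pp u x - pp u y‖ ≤ a * r ∧ |ps u x - ps u y - ⟪x - y, pp u y⟫| ≤ a * r ^ 2

/-- flatness of the zero set extends to the cores -/
def EXT (n : ℕ) : Prop := ∀ C K : ℝ, ∃ C' ε₀ : ℝ, 0 < ε₀ ∧ ∀ (u : E n → ℝ) (ε l : ℝ)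
  (x : E n), Ok C u → 0 < ε → ε ≤ ε₀ → |ps u x| ≤ K → Gd u ε x (K + 2) → Fl u l x (K + 2) →
  ‖SS u x‖ ≤ l + C' * ε ^ 2

def rEXT (n : ℕ) : Prop := SLAB n → EXT n

/-- sharp decay in a slab without zeros -/
def SD (n : ℕ) : Prop := ∀ C : ℝ, ∃ C₀ μ : ℝ, 0 < C₀ ∧ 0 < μ ∧ ∀ (u : E n → ℝ) (c x : E n)
  (a ρ : ℝ), Ok C u → ‖c‖ = 1 → 0 ≤ a → 0 ≤ ρ →
  (∀ y, ‖y - x‖ ≤ ρ + C₀ → |⟪y - x, c⟫| ≤ a + C₀ → u y ≠ 0) →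
  ff u x ≤ C₀ * (Real.exp (-(√2 * a)) + Real.exp (-(μ * ρ)))

/-- the barrier in the slab of one sheet -/
def BL (n : ℕ) : Prop := ∃ C₀ μ : ℝ, 0 < C₀ ∧ 0 < μ ∧ ∀ (C : ℝ) (u : E n → ℝ) (c y x : E n)
  (a ρ κ b : ℝ), Ok C u → ‖c‖ = 1 → 0 ≤ κ → 0 ≤ b → 0 ≤ ρ → |⟪x - y, c⟫| ≤ a →
  (∀ w, ‖w - x‖ ≤ ρ → |⟪w - y, c⟫| = a → ff u w ≤ b) →
  (∀ w, ‖w - x‖ ≤ ρ → |⟪w - y, c⟫| ≤ a → u w ^ 2 ≤ 5 / 6 →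
    ‖pp u w - c‖ ≤ κ * (1 + ‖w - x‖)) →
  EE u x ≤ C₀ * (b ^ 2 + κ ^ 2 + Real.exp (-(μ * ρ)))

/-- **BASE**: a pair of close sheets near a point where the deficit is large -/
def BASE (n : ℕ) : Prop := ∀ C : ℝ, ∃ C₀ l₀ ε₀ : ℝ, 0 < C₀ ∧ 0 < l₀ ∧ 0 < ε₀ ∧
  ∀ (u : E n → ℝ) (ε : ℝ) (x : E n), Ok C u → 0 < ε → ε ≤ ε₀ → Gd u ε x (2 / ε) →
  Fl u (l₀ * ε) x (2 / ε) → ε ^ 2 / 4 ≤ EE u x →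
  ∃ y y', u y = 0 ∧ u y' = 0 ∧ ‖y - x‖ ≤ C₀ * lg ε ∧ ‖y' - y‖ ≤ C₀ * lg ε ∧
    2 ≤ |⟪y' - y, pp u y⟫| ∧ |⟪y' - y, pp u y⟫| ≤ √2 * lg ε + C₀

def rBASE (n : ℕ) : Prop := SLAB n → EXT n → PAR → SD n → BL n → BASE n

end Vale.Agent.P134T
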