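import Vale.Agent.P134T.Spec

/-!
# P134T: flat slabs (row T.SLAB)
-/

open MeasureTheory Metric Filter Topology Set
open scoped ContDiff RealInnerProductSpace
open Vale.Agent.P366.Stmt (E)
open Vale.Agent.P366W hiding Gr
open Vale.Agent.P134B

noncomputable section

namespace Vale.Agent.P134T

variable {n : ℕ}

theorem line_der (y v : E n) (s : ℝ) : HasDerivAt (fun s : ℝ => y + s • v) v s := by
  simpa using ((hasDerivAt_id s).smul_const v).const_add y

theorem _root_.Vale.Agent.P134B.Ok.tps_line {C : ℝ} {u : E n → ℝ} (h : Ok C u) (y v : E n) (s : ℝ) :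
    HasDerivAt (fun s : ℝ => ps u (y + s • v)) ⟪pp u (y + s • v), v⟫ s := by
  have h1 := (d2 (c2 h.smp) (y + s • v)).hasFDerivAt.comp_hasDerivAt s (line_der y v s)
  rw [← inner_grad] at h1
  exact h1

theorem _root_.Vale.Agent.P134B.Ok.tpp_line {C : ℝ} {u : E n → ℝ} (h : Ok C u) (y v : E n) (s : ℝ) :
    HasDerivAt (fun s : ℝ => pp u (y + s • v)) (SS u (y + s • v) v) s :=
  ((h.tcp.differentiable (by simp)) (y + s • v)).hasFDerivAt.comp_hasDerivAt s (line_der y v s)

theorem slab_step {C K a r t : ℝ} {u : E n → ℝ} {y v : E n} (h : Ok C u) (ha : 0 ≤ a)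
    (hv : ‖v‖ ≤ r) (hS : ∀ w ∈ closedBall y r, |ps u w| ≤ 2 * K + 2 → ‖SS u w‖ ≤ a)
    (ht0 : 0 ≤ t) (ht1 : t ≤ 1) (hb : ∀ s ∈ Icc (0 : ℝ) t, |ps u (y + s • v)| ≤ 2 * K + 2) :
    ‖pp u (y + t • v) - pp u y‖ ≤ a * r ∧
      |ps u (y + t • v) - ps u y - t * ⟪v, pp u y⟫| ≤ a * r ^ 2 := by
  have hr : 0 ≤ r := (norm_nonneg v).trans hv
  have h1 : ∀ s ∈ Icc (0 : ℝ) t, ‖pp u (y + s • v) - pp u y‖ ≤ a * r := by
    intro s hs
    have h2 := norm_image_sub_le_of_norm_deriv_le_segment' (a := 0) (b := t) (C := a * r)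
      (fun s _ => (h.tpp_line y v s).hasDerivWithinAt) (fun s hs => by
        refine ((SS u _).le_opNorm v).trans (mul_le_mul (hS _ ?_ (hb s (Ico_subset_Icc_self hs))) hv
          (norm_nonneg _) ha)
        rw [mem_closedBall_iff_norm, add_sub_cancel_left, norm_smul, Real.norm_eq_abs,
          abs_of_nonneg hs.1]
        nlinarith [hs.1, hs.2, norm_nonneg v]) s hs
    simp only [zero_smul, add_zero, sub_zero] at h2
    exact h2.trans (mul_le_of_le_one_right (by positivity) (hs.2.trans ht1))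
  refine ⟨h1 t ⟨ht0, le_rfl⟩, ?_⟩
  have h3 := norm_image_sub_le_of_norm_deriv_le_segment' (a := 0) (b := t) (C := a * r ^ 2)
    (f := fun s : ℝ => ps u (y + s • v) - s * ⟪v, pp u y⟫)
    (f' := fun s => ⟪pp u (y + s • v), v⟫ - 1 * ⟪v, pp u y⟫)
    (fun s _ => ((h.tps_line y v s).sub ((hasDerivAt_id s).mul_const _)).hasDerivWithinAt)
    (fun s hs => by
      rw [one_mul, real_inner_comm (pp u y) v, ← inner_sub_left, Real.norm_eq_abs]
      refine (abs_real_inner_le_norm _ _).trans ?_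
      refine (mul_le_mul (h1 s (Ico_subset_Icc_self hs)) hv (norm_nonneg _) (by positivity)).trans
        (le_of_eq (by ring))) t ⟨ht0, le_rfl⟩
  simp only [zero_smul, add_zero, sub_zero, zero_mul, Real.norm_eq_abs] at h3
  have e : ps u (y + t • v) - ps u y - t * ⟪v, pp u y⟫ =
      ps u (y + t • v) - t * ⟪v, pp u y⟫ - ps u y := by ring
  rw [e]
  exact h3.trans (mul_le_of_le_one_right (by positivity) ht1)

theorem slab (n : ℕ) : SLAB n := by
  intro C K a r u x y h ha hK hr hi har hS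
  have hc : Continuous fun s : ℝ => |ps u (y + s • (x - y))| :=
    (continuous_iff_continuousAt.2 fun s => (h.tps_line y (x - y) s).continuousAt).abs
  have hK0 : 0 ≤ K := (abs_nonneg _).trans hK
  have hall : Icc (0 : ℝ) 1 ⊆ {s : ℝ | |ps u (y + s • (x - y))| ≤ 2 * K + 2} := by
    refine IsClosed.Icc_subset_of_forall_mem_nhdsGT_of_Icc_subset
      ((isClosed_le hc continuous_const).inter isClosed_Icc) ?_ fun t ht hsub => ?_
    · show |ps u (y + (0 : ℝ) • (x - y))| ≤ 2 * K + 2
      rw [zero_smul, add_zero]; linarith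
    · have h1 := (slab_step h ha hr hS ht.1 ht.2.le hsub).2
      have h2 : |t * ⟪x - y, pp u y⟫| ≤ K := by
        rw [abs_mul, abs_of_nonneg ht.1]
        exact (mul_le_of_le_one_left (abs_nonneg _) ht.2.le).trans hi
      have h3 : |ps u (y + t • (x - y))| < 2 * K + 2 := by
        rw [abs_le] at h1 h2 hK
        rw [abs_lt]
        constructor <;> linarith [h1.1, h1.2, h2.1, h2.2, hK.1, hK.2]
      exact mem_nhdsWithin_of_mem_nhds
        ((hc.continuousAt.eventually (gt_mem_nhds h3)).mono fun s hs => le_of_lt hs)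
  have h4 := slab_step h ha hr hS zero_le_one le_rfl hall
  rwa [one_smul, add_sub_cancel, one_mul] at h4

end Vale.Agent.P134T
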