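import Vale.Agent.P134T.Spec

/-!
# P134T, row BL: the barrier in the slab of one sheet
-/

open MeasureTheory Metric Filter Topology Set
open scoped ContDiff RealInnerProductSpace
open Vale.Agent.P366.Stmt (E)
open Vale.Agent.P366W hiding Gr
open Vale.Agent.P134B

noncomputable section

namespace Vale.Agent.P134T

namespace Bl

variable {n : ℕ} {C a ρ κ b μ k : ℝ} {u : E n → ℝ} {c y x : E n}

theorem nb {w : E n} (hw : w ∈ Sl x ρ y c a) (h1 : ‖w - x‖ ≠ ρ) (h2 : |⟪w - y, c⟫| ≠ a) :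
    Sl x ρ y c a ∈ 𝓝 w := sl_nhds (lt_of_le_of_ne hw.1 h1) (lt_of_le_of_ne hw.2 h2)

theorem ed (h : Ok C u) (e w : E n) : du u e w = ff u w * pe u e w := congrFun (h.ted e) w

theorem pc (h : Ok C u) (hc : ‖c‖ = 1) (w : E n) : ‖pp u w - c‖ ≤ 2 := by
  linarith [norm_sub_le (pp u w) c, h.tpp_le w]

theorem far (hμ : 0 ≤ μ) (hk : 4 * Real.exp (-(μ * ρ)) ≤ k) {w : E n} (hw : ‖w - x‖ = ρ) :
    2 ≤ k * hb μ x w := by
  have h1 := exp_le_hb hμ x w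
  have h2 : Real.exp (-(μ * ρ)) * Real.exp (μ * ρ) = 1 := by rw [← Real.exp_add]; simp
  rw [hw] at h1
  nlinarith [Real.exp_pos (-(μ * ρ)), Real.exp_pos (μ * ρ), one_le_hb μ x w]

/-- the first step -/
theorem st1 (h : Ok C u) (hc : ‖c‖ = 1) (hμ : 0 < μ) (hn : μ ^ 2 + n * μ ≤ 1) (hκ : 0 ≤ κ)
    (k1 : κ * (1 + 2 / μ) ≤ k) (k2 : 2 * b ≤ k) (k3 : 4 * Real.exp (-(μ * ρ)) ≤ k)
    (h1 : ∀ w, ‖w - x‖ ≤ ρ → |⟪w - y, c⟫| = a → ff u w ≤ b)
    (h2 : ∀ w, ‖w - x‖ ≤ ρ → |⟪w - y, c⟫| ≤ a → u w ^ 2 ≤ 5 / 6 →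
      ‖pp u w - c‖ ≤ κ * (1 + ‖w - x‖)) :
    ∀ w ∈ Sl x ρ y c a, ff u w * ‖pp u w - c‖ ≤ k * hb μ x w := by
  have k0 : 0 ≤ k := le_trans (by positivity) k3
  have key : ∀ η : E n, ⟪c, η⟫ ≤ 0 → ∀ w ∈ Sl x ρ y c a,
      du u η w - ⟪c, η⟫ * ff u w - ‖η‖ * k * hb μ x w ≤ 0 := by
    intro η hη
    have cg : ContDiff ℝ 2 fun w => du u η w - ⟪c, η⟫ * ff u w :=
      (c2 (h.tcdu η)).sub (contDiff_const.mul (c2 h.tcf))
    refine mp (sl_compact x ρ y c a) (cg.sub (contDiff_const.mul (cd_hb μ x))) fun w hw hp => ?_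
    have b1 := one_le_hb μ x w
    have f0 := h.tff_pos w
    have f1 := ff_le u w
    have e : du u η w - ⟪c, η⟫ * ff u w ≤ ‖η‖ * (ff u w * ‖pp u w - c‖) := by
      have := real_inner_le_norm (pp u w - c) η
      rw [inner_sub_left] at this
      rw [ed h, pe]
      nlinarith
    have hl : k * hb μ x w < ff u w * ‖pp u w - c‖ :=
      lt_of_mul_lt_mul_left (a := ‖η‖) (by linarith) (norm_nonneg _)
    have p2 := pc h hc w
    have p0 := norm_nonneg (pp u w - c)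
    refine ⟨nb hw (fun e1 => ?_) fun e2 => ?_, fun _ => ?_⟩
    · have := far hμ.le k3 e1
      nlinarith
    · have := h1 w hw.1 e2
      nlinarith
    · have u1 : 5 / 6 < u w ^ 2 := by
        refine lt_of_not_ge fun e3 => ?_
        have a1 := h2 w hw.1 hw.2 e3
        have a2 : ‖w - x‖ ≤ 2 / μ * hb μ x w := by
          rw [div_mul_eq_mul_div, le_div_iff₀ hμ]
          linarith [norm_le_hb hμ.le x w]
        have a3 : κ * (1 + ‖w - x‖) ≤ κ * ((1 + 2 / μ) * hb μ x w) :=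
          mul_le_mul_of_nonneg_left (by linarith) hκ
        have a4 := mul_le_mul_of_nonneg_right k1 (zero_le_one.trans b1)
        nlinarith
      rw [lap_sub cg (contDiff_const.mul (cd_hb μ x)), lap_cmul _ (cd_hb μ x),
        lap_sub (c2 (h.tcdu η)) (contDiff_const.mul (c2 h.tcf)), lap_cmul _ (c2 h.tcf), h.tld, h.tlf]
      have a1 : lap (hb μ x) w ≤ hb μ x w := (lap_hb hμ.le x w).trans (by nlinarith)
      have a2 : 0 ≤ ‖η‖ * k := by positivity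
      have a3 := mul_le_mul_of_nonneg_left a1 a2
      have a4 : 0 ≤ -⟪c, η⟫ * (√2 * EE u w) :=
        mul_nonneg (by linarith) (mul_nonneg (by positivity) (h.tEE_nn w))
      have a5 : 0 ≤ ‖η‖ * k * hb μ x w := by positivity
      nlinarith
  intro w hw
  have i1 : ⟪c, pp u w - c⟫ ≤ 0 := by
    have := real_inner_le_norm c (pp u w)
    rw [inner_sub_right, real_inner_self_eq_norm_sq, hc]
    rw [hc] at this
    linarith [h.tpp_le w]
  have := key _ i1 w hw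
  have e : du u (pp u w - c) w - ⟪c, pp u w - c⟫ * ff u w = ff u w * ‖pp u w - c‖ ^ 2 := by
    rw [ed h, pe, ← real_inner_self_eq_norm_sq, inner_sub_left (pp u w) c]
    ring
  rw [e] at this
  rcases (norm_nonneg (pp u w - c)).eq_or_lt with p0 | p0
  · rw [← p0, mul_zero]
    exact mul_nonneg k0 (zero_le_one.trans (one_le_hb μ x w))
  · exact le_of_mul_le_mul_left (by linarith) p0

theorem s2 : (√2 : ℝ) * √2 = 2 := Real.mul_self_sqrt (by norm_num)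

theorem eE (h : Ok C u) (hc : ‖c‖ = 1) (w : E n) :
    EE u w = 2 * ff u w * (ff u w - du u c w) - (ff u w * ‖pp u w - c‖) ^ 2 := by
  rw [mul_pow, norm_sub_sq_real, hc, ed h, pe, EE, qq]
  ring

theorem lapv (h : Ok C u) (hc : ‖c‖ = 1) (w : E n) : lap (fun w => ff u w - du u c w) w =
    (1 + u w ^ 2) * (ff u w - du u c w) - √2 * (ff u w * ‖pp u w - c‖) ^ 2 := by
  have e : √2 * ff u w = 1 - u w ^ 2 := by rw [ff]; field_simp
  rw [lap_sub (c2 h.tcf) (c2 (h.tcdu c)), h.tlf, h.tld, eE h hc]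
  linear_combination 2 * (ff u w - du u c w) * e

theorem lapi (h : Ok C u) (w : E n) :
    lap (fun w => (ff u w)⁻¹) w ≤ (1 + u w ^ 2) * (ff u w)⁻¹ := by
  have f0 := h.tff_pos w
  have d2 : HasDerivAt (fun s : ℝ => -(s ^ 2)⁻¹) (2 / ff u w ^ 3) (ff u w) := by
    refine ((hasDerivAt_pow 2 (ff u w)).inv (by positivity)).neg.congr_deriv ?_
    field_simp
    norm_num
    ring
  rw [lap_comp (φ := fun s => s⁻¹) (φ₁ := fun s => -(s ^ 2)⁻¹) (c2 h.tcf)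
    (fun y => hasDerivAt_inv (h.tff_pos y).ne') d2, h.tlf, h.gf, norm_smul, mul_pow,
    Real.norm_eq_abs, sq_abs]
  have p1 : ‖pp u w‖ ^ 2 ≤ 1 := pow_le_one₀ (norm_nonneg _) (h.tpp_le w)
  have e : (-(√2 * u w * ff u w)) ^ 2 = 2 * u w ^ 2 * ff u w ^ 2 := by
    linear_combination u w ^ 2 * ff u w ^ 2 * s2
  have a1 : 0 ≤ (ff u w ^ 2)⁻¹ * (√2 * EE u w) :=
    mul_nonneg (by positivity) (mul_nonneg (by positivity) (h.tEE_nn w))
  have a2 : 2 / ff u w ^ 3 * (2 * u w ^ 2 * ff u w ^ 2 * ‖pp u w‖ ^ 2) =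
      4 * u w ^ 2 * (ff u w)⁻¹ * ‖pp u w‖ ^ 2 := by field_simp; ring
  have a3 : (ff u w ^ 2)⁻¹ * ((3 * u w ^ 2 - 1) * ff u w) = (3 * u w ^ 2 - 1) * (ff u w)⁻¹ := by
    field_simp
  have a4 := mul_le_mul_of_nonneg_left p1 (show 0 ≤ 4 * u w ^ 2 * (ff u w)⁻¹ by positivity)
  rw [e, a2]
  linarith

/-- the second step -/
theorem st2 (h : Ok C u) (hc : ‖c‖ = 1) (hμ : 0 < μ) (hn : (2 * μ) ^ 2 + n * (2 * μ) ≤ 1 / 2)
    (k3 : 4 * Real.exp (-(μ * ρ)) ≤ k)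
    (h1 : ∀ w, ‖w - x‖ ≤ ρ → |⟪w - y, c⟫| = a → ff u w ≤ b)
    (h2 : ∀ w ∈ Sl x ρ y c a, ff u w * ‖pp u w - c‖ ≤ k * hb μ x w) :
    ∀ w ∈ Sl x ρ y c a, ff u w - du u c w - 2 * b ^ 2 * (ff u w)⁻¹ -
      3 * k ^ 2 * hb (2 * μ) x w ≤ 0 := by
  have cv : ContDiff ℝ 2 fun w => ff u w - du u c w := (c2 h.tcf).sub (c2 (h.tcdu c))
  have ci : ContDiff ℝ 2 fun w => (ff u w)⁻¹ := (c2 h.tcf).inv fun w => (h.tff_pos w).ne'
  have cw := cv.sub ((contDiff_const (c := 2 * b ^ 2)).mul ci)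
  refine mp (sl_compact x ρ y c a) (cw.sub (contDiff_const.mul (cd_hb (2 * μ) x)))
    fun w hw hp => ?_
  have f0 := h.tff_pos w
  have f1 := ff_le u w
  have b1 := one_le_hb (2 * μ) x w
  have b2 := hb_sq μ x w
  have v2 : ff u w - du u c w ≤ 2 * ff u w := by
    have := (abs_le.1 (abs_real_inner_le_norm (pp u w) c)).1
    rw [hc] at this
    rw [ed h, pe]
    nlinarith [h.tpp_le w]
  have i0 : 0 ≤ 2 * b ^ 2 * (ff u w)⁻¹ := by positivity
  have j0 : 0 ≤ k ^ 2 * hb (2 * μ) x w := by positivity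
  have j1 : (k * hb μ x w) ^ 2 ≤ k ^ 2 * hb (2 * μ) x w := by
    rw [mul_pow]
    exact mul_le_mul_of_nonneg_left b2 (sq_nonneg _)
  refine ⟨nb hw (fun e1 => ?_) fun e2 => ?_, fun _ => ?_⟩
  · have := far hμ.le k3 e1
    nlinarith
  · have a1 := h1 w hw.1 e2
    have a2 : 2 * ff u w ≤ 2 * b ^ 2 * (ff u w)⁻¹ := by
      rw [← div_eq_mul_inv, le_div_iff₀ f0]
      nlinarith
    linarith
  · rw [lap_sub cw (contDiff_const.mul (cd_hb (2 * μ) x)), lap_cmul _ (cd_hb (2 * μ) x),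
      lap_sub cv (contDiff_const.mul ci), lap_cmul _ ci, lapv h hc]
    have a1 : lap (hb (2 * μ) x) w ≤ 1 / 2 * hb (2 * μ) x w :=
      (lap_hb (by positivity) x w).trans (mul_le_mul_of_nonneg_right hn (by linarith))
    have a2 := mul_le_mul_of_nonneg_left a1 (show 0 ≤ 3 * k ^ 2 by positivity)
    have a3 := mul_le_mul_of_nonneg_left (lapi h w) (show 0 ≤ 2 * b ^ 2 by positivity)
    have a4 : (ff u w * ‖pp u w - c‖) ^ 2 ≤ k ^ 2 * hb (2 * μ) x w :=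
      (pow_le_pow_left₀ (by positivity) (h2 w hw) 2).trans j1
    have a5 : √2 ≤ 3 / 2 := Real.sqrt_le_iff.2 (by norm_num)
    have a6 := mul_le_mul a5 a4 (sq_nonneg _) (by norm_num)
    have a7 : 0 ≤ u w ^ 2 * (ff u w - du u c w - 2 * b ^ 2 * (ff u w)⁻¹) :=
      mul_nonneg (sq_nonneg _) (by linarith)
    linarith

end Bl

theorem bl (n : ℕ) : BL n := by
  obtain ⟨μ, hμ, hn⟩ : ∃ μ : ℝ, 0 < μ ∧ (2 * μ) ^ 2 + n * (2 * μ) ≤ 1 / 2 := by
    have n0 : (0 : ℝ) ≤ n := n.cast_nonneg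
    refine ⟨1 / (8 * (n + 1)), by positivity, ?_⟩
    have e : 2 * (1 / (8 * ((n : ℝ) + 1))) = 1 / (4 * (n + 1)) := by field_simp; norm_num
    have a1 : 1 / (4 * ((n : ℝ) + 1)) ≤ 1 / 4 := one_div_le_one_div_of_le (by norm_num) (by linarith)
    have a2 : (n : ℝ) * (1 / (4 * (n + 1))) ≤ 1 / 4 := by
      rw [mul_one_div, div_le_div_iff₀ (by positivity) (by norm_num)]
      linarith
    have a3 := pow_le_pow_left₀ (by positivity) a1 2
    rw [e]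
    linarith
  have c0 := Real.cosh_pos (2 * μ)
  refine ⟨4 + 18 * Real.cosh (2 * μ) * ((1 + 2 / μ) ^ 2 + 16), 2 * μ, by positivity, by positivity,
    fun C u c y x a ρ κ b h hc hκ hb0 hρ hx h1 h2 => ?_⟩
  have n0 : (0 : ℝ) ≤ n * μ := by positivity
  have e0 := Real.exp_pos (-(μ * ρ))
  have t0 : 0 ≤ κ * (1 + 2 / μ) := by positivity
  have k3 : 4 * Real.exp (-(μ * ρ)) ≤ κ * (1 + 2 / μ) + 2 * b + 4 * Real.exp (-(μ * ρ)) := by
    linarith
  have s1 := Bl.st1 h hc hμ (by nlinarith) hκ (by linarith) (by linarith) k3 h1 h2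
  have s2 := Bl.st2 h hc hμ hn k3 h1 s1 x ⟨by simpa using hρ, hx⟩
  have e1 : Real.exp (-(2 * μ * ρ)) = Real.exp (-(μ * ρ)) ^ 2 := by
    rw [sq, ← Real.exp_add]; congr 1; ring
  rw [hb_self] at s2
  rw [Bl.eE h hc, e1]
  generalize Real.exp (-(μ * ρ)) = t at *
  generalize 1 + 2 / μ = m at *
  generalize Real.cosh (2 * μ) = z at *
  have f0 := h.tff_pos x
  have f1 := ff_le u x
  have a1 : (κ * m + 2 * b + 4 * t) ^ 2 ≤ 3 * (m ^ 2 + 16) * (b ^ 2 + κ ^ 2 + t ^ 2) := by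
    nlinarith [sq_nonneg (κ * m - 2 * b), sq_nonneg (κ * m - 4 * t), sq_nonneg (2 * b - 4 * t),
      sq_nonneg (m * b), sq_nonneg (m * t), sq_nonneg b, sq_nonneg κ]
  have a2 := mul_le_mul_of_nonneg_left s2 f0.le
  have a3 : ff u x * (2 * b ^ 2 * (ff u x)⁻¹) = 2 * b ^ 2 := by field_simp
  have a4 : ff u x * (3 * (κ * m + 2 * b + 4 * t) ^ 2 * z) ≤
      1 * (3 * (3 * (m ^ 2 + 16) * (b ^ 2 + κ ^ 2 + t ^ 2)) * z) := by gcongr
  nlinarith [sq_nonneg (ff u x * ‖pp u x - c‖), sq_nonneg κ, sq_nonneg t]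

end Vale.Agent.P134T
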