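import Vale.Agent.P134T.Slab

/-!
# P134T: flatness of the zero set extends to the cores (row T.EXT)
-/

open MeasureTheory Metric Filter Topology Set
open scoped ContDiff RealInnerProductSpace
open Vale.Agent.P366.Stmt (E)
open Vale.Agent.P366W hiding Gr
open Vale.Agent.P134B

noncomputable section

namespace Vale.Agent.P134T

variable {n : ℕ}

theorem mv_sym {F : Type*} [NormedAddCommGroup F] [NormedSpace ℝ F] {f f' : ℝ → F} {ρ B : ℝ}
    (hf : ∀ s, HasDerivAt f (f' s) s) (hB : ∀ s ∈ Icc (-ρ) ρ, ‖f' s‖ ≤ B) {s : ℝ}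
    (hs : s ∈ Icc (-ρ) ρ) : ‖f s - f 0‖ ≤ B * ρ := by
  have hρ : 0 ≤ ρ := by linarith [hs.1, hs.2]
  have h0 : (0 : ℝ) ∈ Icc (-ρ) ρ := ⟨by linarith, hρ⟩
  have h1 := (convex_Icc (-ρ) ρ).norm_image_sub_le_of_norm_hasDerivWithin_le
    (fun s _ => (hf s).hasDerivWithinAt) hB h0 hs
  refine h1.trans (mul_le_mul_of_nonneg_left ?_ ((norm_nonneg _).trans (hB 0 h0)))
  rw [sub_zero, Real.norm_eq_abs]
  exact abs_le.2 hs

theorem ext (n : ℕ) : rEXT n := by
  intro _ C K
  obtain ⟨A, hA⟩ : ∃ A : ℝ, A = √2 * Real.exp (√2 * (2 * K + 1)) := ⟨_, rfl⟩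
  have hA0 : 0 < A := by rw [hA]; positivity
  obtain ⟨B, hB⟩ : ∃ B : ℝ, B = A * (|C| * (|K| + 1) + 1) := ⟨_, rfl⟩
  have hB0 : 0 < B := by rw [hB]; positivity
  refine ⟨(C * A ^ 2 + C * A * B) * (K + 1), 1 / (2 * B * (|K| + 1)), by positivity, ?_⟩
  intro u ε l x ok hε hε0 hK hG hF
  have hK0 : 0 ≤ K := (abs_nonneg _).trans hK
  have hC : 0 ≤ C := by linarith [ok.C1]
  rw [abs_of_nonneg hK0] at hε0
  rw [abs_of_nonneg hK0, abs_of_nonneg hC] at hB
  have hBε : B * ε * (K + 1) ≤ 1 / 2 := by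
    rw [le_div_iff₀ (by positivity)] at hε0
    linarith
  have hAB : A * ε ≤ B * ε := by
    rw [hB]; gcongr; nlinarith [mul_nonneg hC (show 0 ≤ K + 1 by linarith)]
  have hAε : A * ε ≤ 1 / 2 := by nlinarith [mul_pos hB0 hε]
  have hw : ∀ w, ‖w - x‖ ≤ K + 1 → qq u w ≤ (A * ε) ^ 2 ∧ ‖SS u w‖ ≤ C * (A * ε) := fun w hw => by
    have h1 : |ps u w| ≤ 2 * K + 1 := by
      have h2 := ok.tlip x w
      linarith [abs_sub_abs_le_abs_sub (ps u w) (ps u x)]
    have h2 := hG w (mem_ball_iff_norm.2 (by linarith))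
    exact ⟨hA ▸ ok.tcore_q h2 h1, hA ▸ ok.tcore_S hε.le h2 h1⟩
  have hq : qq u x ≤ A * ε := by
    have h1 := (hw x (by simp; linarith)).1
    nlinarith [mul_pos hA0 hε]
  have hp := ok.tpp_ge x
  have hp0 : 0 < ‖pp u x‖ := by linarith
  obtain ⟨c, hc⟩ : ∃ c : E n, c = ‖pp u x‖⁻¹ • pp u x := ⟨_, rfl⟩
  have hc1 : ‖c‖ = 1 := by
    rw [hc, norm_smul, norm_inv, norm_norm, inv_mul_cancel₀ hp0.ne']
  have hpc : ‖pp u x - c‖ ≤ A * ε := by
    have h1 : pp u x - c = (‖pp u x‖ - 1) • c := by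
      rw [sub_smul, one_smul, hc, smul_smul, mul_inv_cancel₀ hp0.ne', one_smul]
    rw [h1, norm_smul, hc1, mul_one, Real.norm_eq_abs, abs_of_nonpos (by linarith [ok.tpp_le x])]
    linarith
  have hl : ∀ s ∈ Icc (-(K + 1)) (K + 1), ‖x + s • c - x‖ ≤ K + 1 := fun s hs => by
    rw [add_sub_cancel_left, norm_smul, hc1, mul_one, Real.norm_eq_abs]
    exact abs_le.2 hs
  have hline : ∀ s ∈ Icc (-(K + 1)) (K + 1), ‖c - pp u (x + s • c)‖ ≤ B * ε := fun s hs => by
    have h1 := mv_sym (f := fun s : ℝ => pp u (x + s • c)) (f' := fun s => SS u (x + s • c) c)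
      (B := C * (A * ε)) (fun s => ok.tpp_line x c s) (fun s hs => by
        have h2 := (SS u (x + s • c)).le_opNorm c
        rw [hc1, mul_one] at h2
        exact h2.trans (hw _ (hl s hs)).2) hs
    simp only [zero_smul, add_zero] at h1
    rw [norm_sub_rev, hB]
    linarith [norm_sub_le_norm_sub_add_norm_sub (pp u (x + s • c)) (pp u x) c]
  have hps : ∀ s ∈ Icc (-(K + 1)) (K + 1), |ps u (x + s • c) - s - ps u x| ≤ 1 / 2 := by
    intro s hs
    have h1 := mv_sym (f := fun s : ℝ => ps u (x + s • c) - s)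
      (f' := fun s => ⟪pp u (x + s • c), c⟫ - 1) (B := B * ε)
      (fun s => (ok.tps_line x c s).sub (hasDerivAt_id s)) (fun s hs => by
        have h2 : ⟪pp u (x + s • c), c⟫ - 1 = ⟪pp u (x + s • c) - c, c⟫ := by
          rw [inner_sub_left, real_inner_self_eq_norm_sq, hc1, one_pow]
        have h3 := abs_real_inner_le_norm (pp u (x + s • c) - c) c
        rw [hc1, mul_one, norm_sub_rev] at h3
        rw [Real.norm_eq_abs, h2]
        exact h3.trans (hline s hs)) hs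
    simp only [zero_smul, add_zero, sub_zero, Real.norm_eq_abs] at h1
    linarith
  have hct : Continuous fun s : ℝ => ps u (x + s • c) :=
    continuous_iff_continuousAt.2 fun s => (ok.tps_line x c s).continuousAt
  obtain ⟨s, hs, hs0⟩ := intermediate_value_Icc (by linarith : -(K + 1) ≤ K + 1) hct.continuousOn
    (show (0 : ℝ) ∈ Icc _ _ from by
      have h1 := abs_le.1 (hps (-(K + 1)) ⟨le_rfl, by linarith⟩)
      have h2 := abs_le.1 (hps (K + 1) ⟨by linarith, le_rfl⟩)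
      have h3 := abs_le.1 hK
      constructor
      · show ps u (x + (-(K + 1)) • c) ≤ 0
        linarith [h1.2, h3.2]
      · show 0 ≤ ps u (x + (K + 1) • c)
        linarith [h2.1, h3.1])
  have hz : ‖SS u (x + s • c)‖ ≤ l := by
    refine hF _ ?_ (ok.tps_zero.1 hs0)
    rw [mem_ball_iff_norm, add_sub_cancel_left, norm_smul, hc1, mul_one, Real.norm_eq_abs]
    linarith [abs_le.2 hs]
  have hSd : Differentiable ℝ (SS u) :=
    (ok.tcp.fderiv_right (m := 1) (by norm_cast)).differentiable (by simp)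
  have hS := mv_sym (f := fun s : ℝ => SS u (x + s • c))
    (f' := fun s => fderiv ℝ (SS u) (x + s • c) c) (B := (C * A ^ 2 + C * A * B) * ε ^ 2)
    (fun s => (hSd _).hasFDerivAt.comp_hasDerivAt s (line_der x c s))
    (fun s hs => by
      obtain ⟨w, hw'⟩ : ∃ w, w = x + s • c := ⟨_, rfl⟩
      have h1 := (hw _ (hl s hs)).1
      have h2 := hline s hs
      rw [← hw'] at h1 h2 ⊢
      have h3 : √(qq u w) ≤ A * ε := Real.sqrt_le_iff.2 ⟨by positivity, h1⟩
      have h4 := (ok.S2 w).trans (mul_le_mul_of_nonneg_left h1 hC)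
      have h5 := ((fderiv ℝ (SS u) w).le_opNorm (c - pp u w)).trans (mul_le_mul
        ((ok.S1 w).trans (mul_le_mul_of_nonneg_left h3 hC)) h2 (norm_nonneg _) (by positivity))
      have h6 : fderiv ℝ (SS u) w c = fderiv ℝ (SS u) w (pp u w) +
          fderiv ℝ (SS u) w (c - pp u w) := by rw [← map_add, add_sub_cancel]
      rw [h6]
      refine (norm_add_le _ _).trans ((add_le_add h4 h5).trans (le_of_eq (by ring)))) hs
  simp only [zero_smul, add_zero] at hS
  have h5 := norm_sub_norm_le (SS u x) (SS u (x + s • c))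
  rw [norm_sub_rev] at h5
  linarith

end Vale.Agent.P134T
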