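import Vale.Agent.P134T.Spec

/-!
# P134T: sharp decay in a slab without zeros
-/

open MeasureTheory Metric Filter Topology Set
open scoped ContDiff RealInnerProductSpace
open Vale.Agent.P366.Stmt (E)
open Vale.Agent.P366W hiding Gr
open Vale.Agent.P134B

noncomputable section

namespace Vale.Agent.P134T

namespace Sd

variable {n : ℕ} {u : E n → ℝ} {C : ℝ}

/-- the subsolution -/
def sb (u : E n → ℝ) (y : E n) : ℝ := ff u y + 5 * (ff u y * ff u y)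

theorem sb_c2 (h : Ok C u) : ContDiff ℝ 2 (sb u) :=
  (c2 h.tcf).add (contDiff_const.mul ((c2 h.tcf).mul (c2 h.tcf)))

theorem ff_eq (u : E n → ℝ) (y : E n) : √2 * ff u y = 1 - u y ^ 2 := by
  unfold ff; field_simp

theorem sb_lap (h : Ok C u) {y : E n} (hy : 5 / 6 ≤ u y ^ 2) : 2 * sb u y ≤ lap (sb u) y := by
  have c := c2 h.tcf
  have e : lap (sb u) y = lap (ff u) y + 5 * (ff u y * lap (ff u) y + ff u y * lap (ff u) y +
      2 * ⟪gradient (ff u) y, gradient (ff u) y⟫) := by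
    rw [show sb u = fun y => ff u y + 5 * (ff u y * ff u y) from rfl,
      lap_add c (contDiff_const.mul (c.mul c)), lap_cmul 5 (c.mul c), lap_mul c c]
  have f0 := h.tff_pos y
  have e2 := ff_eq u y
  have s2 : √2 ≤ 3 / 2 := Real.sqrt_le_iff.2 ⟨by norm_num, by norm_num⟩
  have l1 : (3 * u y ^ 2 - 1) * ff u y ≤ lap (ff u) y := by
    rw [h.tlf]; nlinarith [h.tEE_nn y, Real.sqrt_nonneg 2]
  have l2 : (1 + 10 * ff u y) * ((3 * u y ^ 2 - 1) * ff u y) ≤ (1 + 10 * ff u y) * lap (ff u) y :=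
    mul_le_mul_of_nonneg_left l1 (by positivity)
  have l3 : 0 ≤ ⟪gradient (ff u) y, gradient (ff u) y⟫ := real_inner_self_nonneg
  have l4 : 2 + 10 * ff u y ≤ (1 + 10 * ff u y) * (3 * u y ^ 2 - 1) := by
    have k1 : 1 - u y ^ 2 ≤ 3 / 2 * ff u y := by rw [← e2]; gcongr
    nlinarith
  have l5 := mul_le_mul_of_nonneg_right l4 f0.le
  rw [e]; unfold sb
  nlinarith

theorem sb_le (h : Ok C u) {y : E n} (hy : 5 / 6 ≤ u y ^ 2) : sb u y ≤ 1 := by
  have f0 := h.tff_pos y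
  have e2 := ff_eq u y
  have k : ff u y ≤ 1 / 6 := by nlinarith [Real.one_lt_sqrt_two]
  unfold sb
  nlinarith

/-- the barrier -/
def br (μ a ρ : ℝ) (c x y : E n) : ℝ :=
  Real.exp (√2 * ⟪y - x, c⟫ + -(√2 * a)) + Real.exp (-√2 * ⟪y - x, c⟫ + -(√2 * a)) +
    2 * Real.exp (-(μ * ρ)) * hb μ x y

theorem cd_e (p q : ℝ) (c x : E n) : ContDiff ℝ 2 fun y : E n => Real.exp (p * ⟪y - x, c⟫ + q) :=
  ((contDiff_const.mul (cd_lin x c)).add contDiff_const).exp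

theorem br_c2 (μ a ρ : ℝ) (c x : E n) : ContDiff ℝ 2 (br μ a ρ c x) :=
  ((cd_e _ _ c x).add (cd_e _ _ c x)).add (contDiff_const.mul (cd_hb μ x))

theorem br_lap {μ : ℝ} (hμ : 0 ≤ μ) (h2 : μ ^ 2 + n * μ ≤ 2) (a ρ : ℝ) {c : E n} (hc : ‖c‖ = 1)
    (x y : E n) : lap (br μ a ρ c x) y ≤ 2 * br μ a ρ c x y := by
  rw [show br μ a ρ c x = fun y => (Real.exp (√2 * ⟪y - x, c⟫ + -(√2 * a)) +
      Real.exp (-√2 * ⟪y - x, c⟫ + -(√2 * a))) + (2 * Real.exp (-(μ * ρ))) * hb μ x y from rfl,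
    lap_add ((cd_e _ _ c x).add (cd_e _ _ c x)) (contDiff_const.mul (cd_hb μ x)),
    lap_add (cd_e _ _ c x) (cd_e _ _ c x), lap_exp_lin, lap_exp_lin, lap_cmul _ (cd_hb μ x), hc,
    neg_sq, Real.sq_sqrt (by norm_num)]
  have k : lap (hb μ x) y ≤ 2 * hb μ x y :=
    (lap_hb hμ x y).trans (mul_le_mul_of_nonneg_right h2 (by linarith [one_le_hb μ x y]))
  have := mul_le_mul_of_nonneg_left k (show 0 ≤ 2 * Real.exp (-(μ * ρ)) by positivity)
  linarith

theorem br_ge {μ a ρ : ℝ} (hμ : 0 ≤ μ) {c x y : E n} (h : ρ ≤ ‖y - x‖ ∨ a ≤ |⟪y - x, c⟫|) :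
    1 ≤ br μ a ρ c x y := by
  have p1 := Real.exp_pos (√2 * ⟪y - x, c⟫ + -(√2 * a))
  have p2 := Real.exp_pos (-√2 * ⟪y - x, c⟫ + -(√2 * a))
  have p3 : 0 ≤ 2 * Real.exp (-(μ * ρ)) * hb μ x y :=
    mul_nonneg (by positivity) (by linarith [one_le_hb μ x y])
  have s0 := Real.sqrt_nonneg 2
  unfold br
  rcases h with h | h
  · have k1 := mul_le_mul_of_nonneg_left (exp_le_hb hμ x y) (Real.exp_pos (-(μ * ρ))).le
    have k2 : 1 ≤ Real.exp (-(μ * ρ)) * Real.exp (μ * ‖y - x‖) := by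
      rw [← Real.exp_add]
      exact Real.one_le_exp (by nlinarith)
    linarith
  · rcases le_abs.1 h with h | h
    · have : 1 ≤ Real.exp (√2 * ⟪y - x, c⟫ + -(√2 * a)) := Real.one_le_exp (by nlinarith)
      linarith
    · have : 1 ≤ Real.exp (-√2 * ⟪y - x, c⟫ + -(√2 * a)) := Real.one_le_exp (by nlinarith)
      linarith

end Sd

open Sd in
theorem sd (n : ℕ) : SD n := by
  obtain ⟨μ, hμ⟩ : ∃ μ : ℝ, μ = 1 / (n + 1) := ⟨_, rfl⟩
  have n0 : (0 : ℝ) ≤ n := Nat.cast_nonneg n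
  have μ0 : 0 < μ := hμ ▸ by positivity
  have μ1 : μ * (n + 1) = 1 := by rw [hμ]; field_simp
  have μ2 : μ ^ 2 + n * μ ≤ 2 := by nlinarith
  have ch := Real.one_le_cosh μ
  intro C
  obtain ⟨R, hR⟩ : ∃ R : ℝ, R = 10 * |C| + 2 + 2 * Real.cosh μ := ⟨_, rfl⟩
  have a0 := abs_nonneg C
  have R0 : 0 < R := hR ▸ by positivity
  refine ⟨R, μ, R0, μ0, fun u c x a ρ h hc ha hρ hz => ?_⟩
  have hu : ∀ y ∈ Sl x ρ x c a, 5 / 6 ≤ u y ^ 2 := fun y hy => by
    have k := h.dec y R R0.le fun z hz' => by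
      have k1 : ‖z - y‖ < R := mem_ball_iff_norm.1 hz'
      have k2 : |⟪z - y, c⟫| ≤ ‖z - y‖ := by simpa [hc] using abs_real_inner_le_norm (z - y) c
      refine hz z ?_ ?_
      · linarith [norm_sub_le_norm_sub_add_norm_sub z y x, hy.1]
      · rw [show z - x = (z - y) + (y - x) by abel, inner_add_left]
        linarith [abs_add_le ⟪z - y, c⟫ ⟪y - x, c⟫, hy.2]
    have k3 : C * Real.exp (-R) ≤ 1 / 10 := by
      rw [Real.exp_neg, ← div_eq_mul_inv, div_le_iff₀ (Real.exp_pos R)]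
      linarith [Real.add_one_le_exp R, le_abs_self C]
    have s2 : √2 ≤ 3 / 2 := Real.sqrt_le_iff.2 ⟨by norm_num, by norm_num⟩
    have k4 : √2 * ff u y ≤ 3 / 2 * (1 / 10) :=
      mul_le_mul s2 (k.trans k3) (h.tff_pos y).le (by norm_num)
    linarith [ff_eq u y]
  have key := mp (f := fun y => sb u y - br μ a ρ c x y) (sl_compact x ρ x c a)
    ((sb_c2 h).sub (br_c2 μ a ρ c x)) (fun y hy hp => by
      have k1 := sb_le h (hu y hy)
      refine ⟨sl_nhds (not_le.1 fun k => ?_) (not_le.1 fun k => ?_), fun _ => ?_⟩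
      · linarith [br_ge (a := a) (c := c) μ0.le (Or.inl k)]
      · linarith [br_ge (ρ := ρ) μ0.le (Or.inr k)]
      · rw [lap_sub (sb_c2 h) (br_c2 μ a ρ c x)]
        linarith [sb_lap h (hu y hy), br_lap μ0.le μ2 a ρ hc x y]) x ⟨by simpa, by simpa⟩
  have f0 := h.tff_pos x
  have e : br μ a ρ c x x = 2 * Real.exp (-(√2 * a)) + 2 * Real.cosh μ * Real.exp (-(μ * ρ)) := by
    unfold br; rw [hb_self]; simp; ring
  have k1 : 2 * Real.exp (-(√2 * a)) ≤ R * Real.exp (-(√2 * a)) := by gcongr; linarith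
  have k2 : 2 * Real.cosh μ * Real.exp (-(μ * ρ)) ≤ R * Real.exp (-(μ * ρ)) := by
    gcongr; linarith
  rw [e] at key
  unfold sb at key
  nlinarith

end Vale.Agent.P134T
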