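import Vale.Agent.P134T.Base
import Vale.Agent.P134T.Ext
import Vale.Agent.P134T.Sd
import Vale.Agent.P134T.Bl
import Vale.Agent.P134B.PAR
import Vale.Agent.P134B.SEG

/-!
# P134T: the base point, without hypotheses
-/

namespace Vale.Agent.P134T

theorem base_all (n : ℕ) : BASE n :=
  base n (slab n) (ext n (slab n)) (P134B.par P134B.seg) (sd n) (bl n)

end Vale.Agent.P134T
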