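import Vale.Agent.P134T.Spec

/-!
# P134T: a pair of close sheets near a point where the deficit is large
-/

open MeasureTheory Metric Filter Topology Set
open scoped ContDiff RealInnerProductSpace
open Vale.Agent.P366.Stmt (E)
open Vale.Agent.P366W hiding Gr
open Vale.Agent.P134B

noncomputable section

namespace Vale.Agent.P134T

variable {n : ℕ} {u : E n → ℝ} {C ε : ℝ} {x y c : E n}

theorem exp_lg (hε : 0 < ε) : Real.exp (-lg ε) = ε := by simp [lg, Real.exp_log hε]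

theorem small_lg (A : ℝ) (hA : 0 ≤ A) : ∃ ε₀ > (0 : ℝ), ∀ ε, 0 < ε → ε ≤ ε₀ →
    1 ≤ lg ε ∧ A ≤ lg ε ∧ A * lg ε ^ 4 * √ε ≤ 1 := by
  refine ⟨Real.exp (-(3840 * A + 1)), Real.exp_pos _, fun ε h0 h1 => ?_⟩
  have h2 : 3840 * A + 1 ≤ lg ε := by
    have := Real.log_le_log h0 h1
    rw [Real.log_exp] at this
    unfold lg; linarith
  refine ⟨by linarith, by linarith, ?_⟩
  have h3 : √ε = (Real.exp (lg ε / 2))⁻¹ := by
    rw [← Real.exp_neg, ← neg_div, Real.exp_half, exp_lg h0]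
  have h4 := Real.pow_div_factorial_le_exp (lg ε / 2) (by linarith) 5
  rw [h3, mul_inv_le_iff₀ (Real.exp_pos _), one_mul]
  refine le_trans ?_ h4
  have h5 : (0 : ℝ) ≤ lg ε ^ 4 := by positivity
  simp only [Nat.factorial]
  norm_num
  nlinarith

/-- the nearest zero lies on the normal -/
theorem nearest (h : Ok C u) {R : ℝ} (h0 : ∃ z, ‖z - x‖ < R ∧ u z = 0)
    (hp : ∀ z, ‖z - x‖ < R → u z = 0 → pp u z ≠ 0) :
    ∃ y, u y = 0 ∧ ‖y - x‖ < R ∧ (∀ z, u z = 0 → ‖y - x‖ ≤ ‖z - x‖) ∧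
      ∃ t : ℝ, x - y = t • pp u y := by
  obtain ⟨z, hz, hz0⟩ := h0
  obtain ⟨y, hy, e⟩ := (isClosed_eq h.sm.continuous continuous_const :
    IsClosed {w | u w = 0}).exists_infDist_eq_dist ⟨z, hz0⟩ x
  have hm : ∀ w, u w = 0 → ‖y - x‖ ≤ ‖w - x‖ := fun w hw => by
    rw [← dist_eq_norm, ← dist_eq_norm, dist_comm y, dist_comm w, ← e]
    exact infDist_le_dist_of_mem hw
  have hR := (hm z hz0).trans_lt hz
  refine ⟨y, hy, hR, hm, ?_⟩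
  have h1 : IsLocalExtrOn (fun w => ‖w - x‖ ^ 2) {w | u w = u y} y :=
    Or.inl (IsMinOn.localize fun w hw => pow_le_pow_left₀ (norm_nonneg _)
      (hm w (hw.trans hy)) 2)
  obtain ⟨a, b, hab, h2⟩ := h1.exists_multipliers_of_hasStrictFDerivAt_1d
    (h.sm.contDiffAt.hasStrictFDerivAt (by simp))
    ((cd_nsq (k := 1) x).contDiffAt.hasStrictFDerivAt (by simp))
  have h3 : (a * ff u y) • pp u y + (2 * b) • (y - x) = 0 := ext_inner_right ℝ fun w => by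
    have := DFunLike.congr_fun h2 w
    simp only [add_apply, smul_apply, ← inner_grad, h.gu,
      grad_nsq, inner_smul_left, smul_eq_mul, zero_apply, conj_trivial] at this
    simp only [inner_add_left, inner_smul_left, conj_trivial, inner_zero_left]
    linarith
  have hb : b ≠ 0 := fun hb => by
    have ha : a ≠ 0 := fun ha => hab (by simp [ha, hb])
    simp [hb, ha, (h.tff_pos y).ne', hp y hR hy] at h3
  refine ⟨a * ff u y / (2 * b), ?_⟩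
  have h4 : (2 * b) • (x - y) = (a * ff u y) • pp u y := by
    rw [← neg_sub y x, smul_neg, neg_eq_iff_add_eq_zero, add_comm]; exact h3
  rw [div_eq_inv_mul, mul_smul, ← h4, smul_smul, inv_mul_cancel₀ (by simpa using hb), one_smul]

theorem norm_perp (hc : ‖c‖ = 1) (v : E n) : ‖v - ⟪v, c⟫ • c‖ ≤ ‖v‖ := by
  refine abs_le_of_sq_le_sq' ?_ (norm_nonneg _) |>.2
  rw [norm_sub_sq_real, inner_smul_right, norm_smul, hc, Real.norm_eq_abs, mul_one, sq_abs]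
  nlinarith [sq_nonneg ⟪v, c⟫]

theorem ff_ge1 (h : Ok C u) (hx : |ps u x| ≤ 1) : 1 / 10 ≤ ff u x := by
  refine le_trans ?_ (h.flo x)
  have s : √2 ≤ 3 / 2 := Real.sqrt_le_iff.2 ⟨by norm_num, by norm_num⟩
  have e1 : Real.exp (-(3 / 2)) ≤ Real.exp (-(√2 * |ps u x|)) :=
    Real.exp_le_exp.2 (by nlinarith [abs_nonneg (ps u x), Real.sqrt_nonneg 2])
  have e2 : Real.exp (-(3 / 2)) = Real.exp (-(3 / 8)) ^ 4 := by
    rw [← Real.exp_nat_mul]; norm_num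
  have e3 : (5 / 8 : ℝ) ^ 4 ≤ Real.exp (-(3 / 8)) ^ 4 :=
    pow_le_pow_left₀ (by norm_num) (by linarith [Real.add_one_le_exp (-(3 / 8 : ℝ))]) 4
  rw [le_div_iff₀ (by positivity)]
  nlinarith

theorem ff_ge2 (hx : u x ^ 2 ≤ 5 / 6) : 1 / 10 ≤ ff u x := by
  have s : √2 ≤ 3 / 2 := Real.sqrt_le_iff.2 ⟨by norm_num, by norm_num⟩
  rw [ff, le_div_iff₀ (by positivity)]
  linarith

theorem Gd.sub {z w : E n} {R R' : ℝ} (h : Gd u ε z R) (hw : ‖w - z‖ + R' ≤ R) : Gd u ε w R' :=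
  fun v hv => h v (ball_subset_ball' (by rwa [dist_eq_norm, add_comm]) hv)

theorem Fl.sub {z w : E n} {l R R' : ℝ} (h : Fl u l z R) (hw : ‖w - z‖ + R' ≤ R) : Fl u l w R' :=
  fun v hv => h v (ball_subset_ball' (by rwa [dist_eq_norm, add_comm]) hv)

/-- a point far from the zero set has a wide slab without zeros around it -/
theorem free_far (hS : SLAB n) (h : Ok C u) (hε : 0 < ε) (hc : ‖c‖ = 1) {R₁ r s : ℝ}
    (hR : ∀ w, 1 / 10 ≤ ff u w → ∃ z, ‖z - w‖ < R₁ ∧ u z = 0)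
    (hm : ∀ z, u z = 0 → s + R₁ ≤ ‖z - x‖) (hg : Gd u ε x (2 * r + 1))
    (h1 : C * (√2 * Real.exp (√2 * 4) * ε) * r ^ 2 ≤ 1 / 2)
    (h2 : ∀ z τ, u z = 0 → ‖z - x‖ ≤ r → ⟪τ, c⟫ = 0 → ‖τ‖ ≤ r → |⟪τ, pp u z⟫| ≤ 1 / 2) :
    ∀ z, ‖z - x‖ ≤ r → |⟪z - x, c⟫| ≤ s → u z ≠ 0 := by
  intro z hz hs h0
  have e : x + ⟪z - x, c⟫ • c - z = -((z - x) - ⟪z - x, c⟫ • c) := by abel
  have n1 : ‖x + ⟪z - x, c⟫ • c - z‖ ≤ r := by rw [e, norm_neg]; exact (norm_perp hc _).trans hz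
  have n2 : ⟪x + ⟪z - x, c⟫ • c - z, c⟫ = 0 := by
    rw [e, inner_neg_left, inner_sub_left, inner_smul_left, real_inner_self_eq_norm_sq, hc]; simp
  have n3 := h2 z _ h0 hz n2 n1
  have p0 := h.tps_zero.2 h0
  have k := (hS C 1 (C * (√2 * Real.exp (√2 * 4) * ε)) r u _ z h
    (by have := h.C1; positivity) (by simp [p0]) n1 (by linarith) (by linarith)
    fun w hw h4 => h.tcore_S hε.le (hg w (mem_ball_iff_norm.2 (by
      linarith [norm_sub_le_norm_sub_add_norm_sub w z x, mem_closedBall_iff_norm.1 hw])))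
      (by linarith)).2
  rw [p0, sub_zero] at k
  obtain ⟨v, hv, v0⟩ := hR _ (ff_ge1 h (by
    linarith [abs_sub_abs_le_abs_sub (ps u (x + ⟪z - x, c⟫ • c))
      ⟪x + ⟪z - x, c⟫ • c - z, pp u z⟫]))
  have n4 := norm_sub_le_norm_sub_add_norm_sub v (x + ⟪z - x, c⟫ • c) x
  rw [add_sub_cancel_left, norm_smul, hc, mul_one, Real.norm_eq_abs] at n4
  linarith [hm v v0]

/-- the tilt in the core of an isolated sheet -/
theorem core_tilt (hS : SLAB n) (h : Ok C u) (hc : ‖c‖ = 1) {R₁ ρ a l t k : ℝ} (hy : u y = 0)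
    (hR : ∀ w, 1 / 10 ≤ ff u w → ∃ z, ‖z - w‖ < R₁ ∧ u z = 0) (R0 : 0 ≤ R₁) (l0 : 0 ≤ l)
    (k0 : 0 ≤ k) (k1 : k ≤ 1) (hk : pp u y = k • c) (hx : x - y = t • c)
    (hz : ∀ z, u z = 0 → ‖z - x‖ ≤ ρ + R₁ → |⟪z - y, c⟫| ≤ a + R₁ → |⟪z - y, c⟫| ≤ 3)
    (h1 : l * (ρ + (R₁ + 3)) ^ 2 ≤ 1)
    (h2 : ∀ w ∈ closedBall y (ρ + (R₁ + 3)), |ps u w| ≤ 2 * (R₁ + 3) + 2 → ‖SS u w‖ ≤ l) :
    ∀ w, ‖w - x‖ ≤ ρ → |⟪w - y, c⟫| ≤ a → u w ^ 2 ≤ 5 / 6 →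
      ‖pp u w - c‖ ≤ (l * (R₁ + 3) + (1 - k)) * (1 + ‖w - x‖) := by
  intro w hw ha hu
  obtain ⟨z, z1, z0⟩ := hR w (ff_ge2 hu)
  have i1 : |⟪z - w, c⟫| ≤ R₁ := (abs_real_inner_le_norm _ _).trans (by rw [hc]; linarith)
  have i2 : ⟪z - y, c⟫ = ⟪z - w, c⟫ + ⟪w - y, c⟫ := by rw [← inner_add_left]; simp
  have i3 := hz z z0 (by linarith [norm_sub_le_norm_sub_add_norm_sub z w x])
    (by rw [i2]; linarith [abs_add_le ⟪z - w, c⟫ ⟪w - y, c⟫])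
  have i4 : |⟪w - y, c⟫| ≤ R₁ + 3 := by
    rw [show ⟪w - y, c⟫ = ⟪z - y, c⟫ - ⟪z - w, c⟫ by linarith]
    linarith [abs_sub ⟪z - y, c⟫ ⟪z - w, c⟫]
  have cc : ⟪c, c⟫ = 1 := by rw [real_inner_self_eq_norm_sq, hc]; norm_num
  have e : w - y = ((w - x) - ⟪w - x, c⟫ • c) + ⟪w - y, c⟫ • c := by
    rw [show w - y = (w - x) + t • c by rw [← hx]; abel, inner_add_left, inner_smul_left, cc]
    simp only [add_smul, conj_trivial, mul_one]
    abel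
  have i5 : ‖w - y‖ ≤ ‖w - x‖ + (R₁ + 3) := by
    rw [e]
    refine (norm_add_le _ _).trans (add_le_add (norm_perp hc _) ?_)
    rwa [norm_smul, hc, mul_one]
  have n0 := norm_nonneg (w - x)
  have i6 := (hS C (R₁ + 3) l (‖w - x‖ + (R₁ + 3)) u w y h l0
    (by rw [h.tps_zero.2 hy, abs_zero]; linarith) i5
    (by rw [hk, inner_smul_right, abs_mul, abs_of_nonneg k0]
        nlinarith [abs_nonneg ⟪w - y, c⟫])
    (le_trans (by gcongr) h1) fun v hv => h2 v (closedBall_subset_closedBall (by linarith) hv)).1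
  have i7 : ‖pp u y - c‖ = 1 - k := by
    rw [hk, show k • c - c = (k - 1) • c by rw [sub_smul, one_smul], norm_smul, hc, mul_one,
      Real.norm_eq_abs, abs_of_nonpos (by linarith)]
    ring
  have i8 := norm_sub_le_norm_sub_add_norm_sub (pp u w) (pp u y) c
  nlinarith [mul_nonneg l0 n0, mul_nonneg (mul_nonneg l0 n0) R0, mul_nonneg (sub_nonneg.2 k1) n0]

/-- the small quantities -/
theorem smalls {A X s k : ℝ} (hX : 1 ≤ X) (s0 : 0 ≤ s) (s1 : s ≤ 1) (h : A * X ^ 4 * s ≤ 1)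
    (k0 : 0 ≤ k) (hk : 2 * k ≤ A) : k * X ^ 4 * s ≤ 1 / 2 ∧ k * X ^ 2 * s ≤ 1 / 2 ∧
      k * X ^ 4 * s ^ 2 ≤ 1 / 2 ∧ k * X ^ 2 * s ^ 2 ≤ 1 / 2 ∧ k * s ^ 2 ≤ 1 / 2 := by
  have a : k * X ^ 4 * s ≤ 1 / 2 := by
    nlinarith [mul_le_mul_of_nonneg_right hk (show 0 ≤ X ^ 4 * s by positivity)]
  have b : X ^ 2 ≤ X ^ 4 := pow_le_pow_right₀ hX (by norm_num)
  have b' : 1 ≤ X ^ 4 := one_le_pow₀ hX
  have d : s ^ 2 ≤ s := by nlinarith
  refine ⟨a, le_trans (by gcongr) a, le_trans (by gcongr) a, le_trans (by gcongr) a,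
    le_trans ?_ a⟩
  calc k * s ^ 2 = k * 1 * s ^ 2 := by ring
    _ ≤ _ := by gcongr

theorem decay_le {C₀ β A a μ ρ : ℝ} (hε : 0 < ε) (C0 : 0 < C₀) (β0 : 0 < β)
    (hA : 2 * C₀ / β ≤ A) (ha : lg ε / √2 + A ≤ a) (hρ : 3 * lg ε ≤ μ * ρ)
    (h : C₀ * ε ^ 2 ≤ β / 2) :
    C₀ * (Real.exp (-(√2 * a)) + Real.exp (-(μ * ρ))) ≤ β * ε := by
  have A0 : 0 < A := lt_of_lt_of_le (by positivity) hA
  have s := Real.one_lt_sqrt_two
  have h1 : lg ε + A ≤ √2 * a := by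
    have := mul_le_mul_of_nonneg_left ha (Real.sqrt_nonneg 2)
    rw [mul_add, mul_div_cancel₀ _ (by positivity)] at this
    nlinarith
  have h2 : Real.exp (-(√2 * a)) ≤ ε * Real.exp (-A) := by
    conv_rhs => rw [← exp_lg hε, ← Real.exp_add]
    exact Real.exp_le_exp.2 (by linarith)
  have h3 : Real.exp (-(μ * ρ)) ≤ ε ^ 3 := by
    rw [← exp_lg hε, ← Real.exp_nat_mul]; exact Real.exp_le_exp.2 (by push_cast; linarith)
  have h4 : C₀ * Real.exp (-A) ≤ β / 2 := by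
    rw [Real.exp_neg, mul_inv_le_iff₀ (Real.exp_pos _)]
    rw [div_le_iff₀ β0] at hA
    nlinarith [Real.add_one_le_exp A]
  nlinarith [mul_le_mul_of_nonneg_left h2 C0.le, mul_le_mul_of_nonneg_left h3 C0.le,
    mul_le_mul_of_nonneg_left h4 hε.le, mul_le_mul_of_nonneg_left h hε.le]

/-- the numbers -/
structure Nb (C KP C₀ C₁ C₂ μ₀ μ₁ R β l a₀ Λ ε ρ a : ℝ) : Prop where
  e1 : ε ≤ 1 / 6
  G1 : 1 ≤ lg ε
  G2 : a₀ + 2 * R + 10 ≤ lg ε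
  r0 : 0 ≤ ρ
  r1 : Λ * lg ε = 2 * ρ + 6 * lg ε
  a1 : a₀ ≤ a
  a2 : a ≤ lg ε + a₀
  a3 : 2 * a = √2 * lg ε + 2 * a₀
  L1 : Λ * lg ε ≤ 1 / ε
  L2 : (Λ * lg ε) ^ 4 * ε ≤ 1
  v1 : ∀ a', a - C₀ - R - 3 ≤ a' → C₀ * (Real.exp (-(√2 * a')) + Real.exp (-(μ₀ * ρ))) ≤ β * ε
  v2 : (l * ε + |C₂| * ε ^ 2) * (Λ * lg ε) ^ 2 ≤ 1
  v3 : (l * ε + |C₂| * ε ^ 2) * (R + 3) + 2 * ε ^ 2 ≤ β * ε
  v4 : Real.exp (-(μ₁ * ρ)) ≤ (β * ε) ^ 2
  v5 : C * (√2 * Real.exp (√2 * 4) * ε) * (Λ * lg ε) ^ 2 ≤ 1 / 2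
  v6 : KP * (Λ * lg ε) ^ 2 * √ε ≤ 1 / 2

theorem nums {C KP C₀ C₂ μ₀ μ₁ R β : ℝ} (C₁ : ℝ) (hC : 1 ≤ C) (C0 : 0 < C₀) (m0 : 0 < μ₀)
    (m1 : 0 < μ₁) (R0 : 1 ≤ R) (β0 : 0 < β) : ∃ l > (0 : ℝ), ∃ a₀ Λ, C₀ + R + 3 ≤ a₀ ∧ 0 < Λ ∧
    ∃ ε₀ > (0 : ℝ), ∀ ε, 0 < ε → ε ≤ ε₀ → ∃ ρ a, Nb C KP C₀ C₁ C₂ μ₀ μ₁ R β l a₀ Λ ε ρ a := by
  obtain ⟨μ, hμ⟩ : ∃ μ, μ = min μ₀ μ₁ := ⟨_, rfl⟩
  have μ0 : 0 < μ := by rw [hμ]; positivity
  obtain ⟨a₀, ha₀⟩ : ∃ a, a = C₀ + R + 3 + 2 * C₀ / β := ⟨_, rfl⟩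
  have q0 : 0 < 2 * C₀ / β := by positivity
  obtain ⟨Λ, hΛ⟩ : ∃ a, a = 6 / μ + 6 := ⟨_, rfl⟩
  have q1 : 0 < 6 / μ := by positivity
  obtain ⟨l, hl⟩ : ∃ l, l = β / 2 / (R + 3) := ⟨_, rfl⟩
  have l0 : 0 < l := by rw [hl]; positivity
  have l1 : l * (R + 3) = β / 2 := by rw [hl]; field_simp
  obtain ⟨Q, hQ⟩ : ∃ Q, Q = C * (√2 * Real.exp (√2 * 4)) := ⟨_, rfl⟩
  have Q0 : 0 ≤ Q := by rw [hQ]; positivity
  obtain ⟨w1, h1⟩ : ∃ w, w = C₀ / β := ⟨_, rfl⟩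
  obtain ⟨w2, h2⟩ : ∃ w, w = (|C₂| * (R + 3) + 2) / β := ⟨_, rfl⟩
  obtain ⟨w3, h3⟩ : ∃ w, w = 1 / β ^ 2 := ⟨_, rfl⟩
  have w10 : 0 ≤ w1 := by rw [h1]; positivity
  have w20 : 0 ≤ w2 := by rw [h2]; positivity
  have w30 : 0 ≤ w3 := by rw [h3]; positivity
  have w4 := abs_nonneg KP
  have w5 := abs_nonneg C₂
  obtain ⟨A, hA⟩ : ∃ A, A = 2 * (3 + |KP| + Q + (l + |C₂|) + w1 + w2 + w3) := ⟨_, rfl⟩
  have A0 : 0 ≤ A := by linarith
  have A1 : 0 ≤ A * Λ ^ 4 := by positivity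
  obtain ⟨ε₁, ε10, hε₁⟩ := small_lg (A * Λ ^ 4 + (a₀ + 2 * R + 10)) (by linarith)
  refine ⟨l, l0, a₀, Λ, by linarith, by linarith, ε₁, ε10, fun ε e0 e1 => ?_⟩
  obtain ⟨G1, G2, G3⟩ := hε₁ ε e0 e1
  have X1 : 1 ≤ Λ * lg ε := one_le_mul_of_one_le_of_one_le (by linarith) G1
  have s2 : √ε ^ 2 = ε := Real.sq_sqrt e0.le
  have e2 : ε ≤ 1 := by rw [← exp_lg e0]; exact Real.exp_le_one_iff.2 (by linarith)
  have G5 : A * (Λ * lg ε) ^ 4 * √ε ≤ 1 := le_trans (by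
    rw [mul_pow, ← mul_assoc]; gcongr; linarith) G3
  have sm := fun k k0 hk => smalls (k := k) X1 (Real.sqrt_nonneg ε) (Real.sqrt_le_one.2 e2) G5 k0 hk
  rw [s2] at sm
  obtain ⟨ρ, hρ⟩ : ∃ ρ, ρ = 3 / μ * lg ε := ⟨_, rfl⟩
  have ρ0 : 0 ≤ ρ := by rw [hρ]; positivity
  have ρ2 : μ * ρ = 3 * lg ε := by rw [hρ]; field_simp
  have ρ3 : 3 * lg ε ≤ μ₀ * ρ := ρ2 ▸ mul_le_mul_of_nonneg_right (hμ ▸ min_le_left _ _) ρ0
  have ρ4 : 3 * lg ε ≤ μ₁ * ρ := ρ2 ▸ mul_le_mul_of_nonneg_right (hμ ▸ min_le_right _ _) ρ0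
  have a1 : 0 ≤ lg ε / √2 := by positivity
  have a2 : lg ε / √2 ≤ lg ε := div_le_self (by linarith) Real.one_lt_sqrt_two.le
  have a3 : 2 * (lg ε / √2) = √2 * lg ε := by field_simp; simp
  have e3 : ε ^ 2 ≤ ε := by rw [sq]; exact mul_le_of_le_one_right e0.le e2
  have s1 := sm 1 zero_le_one (by linarith)
  have s3 := (sm 3 (by norm_num) (by linarith)).2.2.2.2
  have s4 := (sm w1 w10 (by linarith)).2.2.2.2
  have s5 := (sm w2 w20 (by linarith)).2.2.2.2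
  have s6 := (sm w3 w30 (by linarith)).2.2.2.2
  have s7 := (sm (l + |C₂|) (by positivity) (by linarith)).2.2.2.1
  have s8 := (sm Q Q0 (by linarith)).2.2.2.1
  have s9 := (sm _ w4 (by linarith)).2.1
  clear sm hε₁ G3 G5 hA
  rw [h1, div_mul_eq_mul_div, div_le_iff₀ β0] at s4
  rw [h2, div_mul_eq_mul_div, div_le_iff₀ β0] at s5
  rw [h3, div_mul_eq_mul_div, div_le_iff₀ (by positivity)] at s6
  refine ⟨ρ, lg ε / √2 + a₀, by linarith, G1, by linarith, ρ0, by rw [hρ, hΛ]; ring, by linarith,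
    by linarith, by linarith, ?_, by linarith [s1.2.2.1], fun a' h => decay_le e0 C0 β0 le_rfl
      (by linarith) ρ3 (by linarith [mul_le_mul_of_nonneg_left e3 C0.le]), ?_, ?_, ?_, ?_, ?_⟩
  · rw [le_div_iff₀ e0]
    have := mul_le_mul_of_nonneg_right (le_self_pow₀ X1 two_ne_zero) e0.le
    linarith [s1.2.2.2.1]
  · calc _ ≤ (l * ε + |C₂| * ε) * (Λ * lg ε) ^ 2 := by gcongr
      _ ≤ 1 := by linarith
  · have := mul_le_mul_of_nonneg_left s5 e0.le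
    have k : l * (R + 3) * ε = β / 2 * ε := by rw [l1]
    linarith
  · have v6 : Real.exp (-(μ₁ * ρ)) ≤ ε ^ 3 := by
      rw [← exp_lg e0, ← Real.exp_nat_mul]; exact Real.exp_le_exp.2 (by push_cast; linarith)
    have := mul_le_mul_of_nonneg_left s6 (sq_nonneg ε)
    linarith [sq_nonneg (β * ε)]
  · rw [hQ] at s8; linarith
  · exact le_trans (by gcongr; exact le_abs_self _) s9

theorem base (n : ℕ) : rBASE n := by
  intro hS hX hP hD hB C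
  by_cases hC : 1 ≤ C
  swap
  · exact ⟨1, 1, 1, one_pos, one_pos, one_pos, fun u ε x h => absurd h.C1 hC⟩
  obtain ⟨KP, εP, εP0, hP⟩ := hP n C
  obtain ⟨C₀, μ₀, C0, m0, hD⟩ := hD C
  obtain ⟨C₁, μ₁, C1, m1, hB⟩ := hB
  obtain ⟨R₁, hR₁⟩ : ∃ R, R = Real.log (10 * C) + 1 := ⟨_, rfl⟩
  have R0 : 1 ≤ R₁ := by linarith [Real.log_nonneg (show 1 ≤ 10 * C by linarith)]
  have R2 : C * Real.exp (-R₁) < 1 / 10 := by
    rw [hR₁, neg_add, Real.exp_add, Real.exp_neg, Real.exp_log (by linarith)]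
    have : Real.exp (-1) < 1 := Real.exp_lt_one_iff.2 (by norm_num)
    field_simp
    linarith
  clear hR₁
  obtain ⟨C₂, εX, εX0, hX⟩ := hX C (2 * (R₁ + 3) + 2)
  obtain ⟨β, β0, β1, β2⟩ : ∃ β : ℝ, 0 < β ∧ C₁ * (3 * β ^ 2) < 1 / 4 ∧ β ≤ 1 / 4 := by
    have k : (C₁ + 1) * (1 / (4 * (C₁ + 1))) = 1 / 4 := by field_simp
    have k0 : 0 < 1 / (4 * (C₁ + 1)) := by positivity
    exact ⟨_, k0, by nlinarith, by nlinarith⟩
  obtain ⟨l₀, l0, a₀, Λ, ha₀, Λ0, ε₁, ε10, hN⟩ := nums (KP := KP) (C₂ := C₂) C₁ hC C0 m0 m1 R0 β0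
  refine ⟨Λ + 2 * a₀, l₀, min ε₁ (min εP εX), by linarith, l0, by positivity,
    fun u ε x h e0 e1 hg hf hE => ?_⟩
  simp only [le_min_iff] at e1
  obtain ⟨ρ, a, e2, G1, G2, ρ0, ρ1, a1, a2, a3, L1, L2, v1, v2, v3, v4, v5, v6⟩ := hN ε e0 e1.1
  rw [show 2 / ε = 1 / ε + 1 / ε by ring] at hg hf
  have hR : ∀ w, 1 / 10 ≤ ff u w → ∃ z, ‖z - w‖ < R₁ ∧ u z = 0 := fun w hw =>
    h.tnear (by linarith) (R2.trans_le hw)
  have f1 : EE u x ≤ ff u x ^ 2 := mul_le_of_le_one_right (sq_nonneg _) (qq_le u x)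
  have f2 : ε / 2 ≤ ff u x := abs_le_of_sq_le_sq' (by linarith) (h.tff_pos x).le |>.2
  have e3 : ε ^ 2 ≤ 1 / 6 := by rw [sq]; exact (mul_le_of_le_one_right e0.le (by linarith)).trans e2
  have pz : ∀ z, ‖z - x‖ < 2 * lg ε → u z = 0 → 1 - 2 * ε ^ 2 ≤ ‖pp u z‖ := fun z hz z0 => by
    linarith [h.tpp_ge z, h.tzero_q (hg z (mem_ball_iff_norm.2 (by linarith))) z0]
  obtain ⟨y, y0, y1, ym, t, ht⟩ := nearest h (R := 2 * lg ε) (h.tnear (by linarith) (by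
    rw [two_mul, neg_add, Real.exp_add]
    have := mul_le_mul_of_nonneg_left (Real.exp_le_exp.2 (show -lg ε ≤ -R₁ by linarith))
      (show 0 ≤ C by linarith)
    rw [exp_lg e0] at this ⊢
    linarith [mul_le_mul_of_nonneg_right (this.trans R2.le) e0.le]))
    fun z hz z0 k => by have := pz z hz z0; rw [k, norm_zero] at this; linarith
  have k0 := pz y y1 y0
  have k1 := h.tpp_le y
  have k2 : 2 / 3 ≤ ‖pp u y‖ := by linarith
  obtain ⟨c, c1, c2⟩ : ∃ c : E n, ‖c‖ = 1 ∧ pp u y = ‖pp u y‖ • c := ⟨‖pp u y‖⁻¹ • pp u y,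
    by rw [norm_smul, norm_inv, norm_norm]; field_simp,
    by rw [smul_smul, mul_inv_cancel₀ (by linarith), one_smul]⟩
  have tri := fun z => norm_sub_le_norm_sub_add_norm_sub z x y
  rw [norm_sub_rev x y] at tri
  have g0 : 0 ≤ a₀ * lg ε := by have : 0 ≤ a₀ := by linarith
                                positivity
  clear pz hN
  rcases lt_or_ge ‖y - x‖ a with hd | hd
  · by_contra hn
    push Not at hn
    have hz : ∀ z, u z = 0 → ‖z - y‖ ≤ Λ * lg ε → |⟪z - y, c⟫| ≤ 2 * a → |⟪z - y, c⟫| < 3 :=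
      fun z z0 z1 z2 => by
        have := hn y z y0 z0 (by linarith) (by linarith)
        rw [c2, inner_smul_right, abs_mul, abs_norm] at this
        by_contra k
        have k := not_lt.1 k
        have := this (by linarith [mul_le_mul k2 k (by norm_num) (norm_nonneg _)])
        linarith [mul_le_of_le_one_left (abs_nonneg ⟪z - y, c⟫) k1]
    clear hn
    have κ0 : 0 ≤ (l₀ * ε + |C₂| * ε ^ 2) * (R₁ + 3) + (1 - ‖pp u y‖) := by
      have := sub_nonneg.2 k1; positivity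
    have k3 := hB C u c y x a ρ _ (β * ε) h c1 κ0 (by positivity) ρ0
      ((abs_real_inner_le_norm _ _).trans (by rw [c1, norm_sub_rev]; linarith))
      (fun w w1 w2 => (hD u c w (a - C₀ - 3) ρ h c1 (by linarith) ρ0 fun z z1 z2 z0 => by
        have i : ⟪z - y, c⟫ = ⟪z - w, c⟫ + ⟪w - y, c⟫ := by rw [← inner_add_left]; simp
        have := hz z z0 (by linarith [norm_sub_le_norm_sub_add_norm_sub z w x, tri z])
          (by rw [i]; linarith [abs_add_le ⟪z - w, c⟫ ⟪w - y, c⟫])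
        rw [show ⟪w - y, c⟫ = ⟪z - y, c⟫ - ⟪z - w, c⟫ by linarith] at w2
        linarith [abs_sub ⟪z - y, c⟫ ⟪z - w, c⟫]).trans (v1 _ (by linarith)))
      (core_tilt (t := t * ‖pp u y‖) hS h c1 y0 hR (by linarith) (by positivity) (norm_nonneg _)
        k1 c2 (by rw [mul_smul, ← c2, ht])
        (fun z z0 z1 z2 => (hz z z0 (by linarith [tri z]) (by linarith)).le)
        (le_trans (by gcongr; linarith) v2) fun w w1 w2 => by
          have w3 : ‖w - x‖ + (2 * (R₁ + 3) + 2 + 2) ≤ 1 / ε + 1 / ε := by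
            linarith [norm_sub_le_norm_sub_add_norm_sub w y x, mem_closedBall_iff_norm.1 w1]
          exact (hX u ε _ w h e0 e1.2.2 w2 (Gd.sub hg w3) (Fl.sub hf w3)).trans (by
            gcongr; exact le_abs_self _))
    have v7 := pow_le_pow_left₀ κ0 (show _ ≤ β * ε by linarith) 2
    have v8 := mul_lt_mul_of_pos_right β1 (sq_pos_of_pos e0)
    have v9 := mul_le_mul_of_nonneg_left (add_le_add (add_le_add (le_refl ((β * ε) ^ 2)) v7) v4)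
      C1.le
    linarith
  · have X1 : 1 ≤ Λ * lg ε := by linarith
    have k3 := hD u c x (a - C₀ - R₁) ρ h c1 (by linarith) ρ0
      (free_far (s := a - C₀ - R₁ + C₀) hS h e0 c1 hR (fun z z0 => by linarith [ym z z0])
        (Gd.sub hg (by rw [sub_self, norm_zero]; linarith))
        (le_trans (by gcongr; linarith) v5) fun z τ z0 z1 τ0 τ1 => by
          have i := hP u ε (Λ * lg ε) y z ((Λ * lg ε)⁻¹ • τ) h e0 e1.2.1
            (Gd.sub hg (by linarith)) y0 z0 X1 L2 (by linarith [tri z])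
            (by rw [c2, inner_smul_left, inner_smul_right, τ0]; simp)
            (by rw [norm_smul, norm_inv, Real.norm_of_nonneg (by linarith),
                  inv_mul_le_iff₀ (by linarith)]; linarith)
          rw [pe, inner_smul_right, abs_mul, abs_inv, abs_of_nonneg (by linarith),
            inv_mul_le_iff₀ (by linarith), real_inner_comm] at i
          linarith)
    have k4 := k3.trans (v1 _ (by linarith))
    linarith [mul_le_mul_of_nonneg_right β2 e0.le]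

end Vale.Agent.P134T
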